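import Mathlib

/-!
# P249: gluing lemma from a weighted coordinate sample to an `ℓ_p^d` embedding

If a family of `d` sampled coordinates `κ` with nonnegative weights `c` reproduces all the
`p`-th powers of the pairwise distances of `x` up to factors `1 ± ε`, then the points
`y i l = (c l / (1 - ε)) ^ (1 / p) * x i (κ l)` of `ℓ_p^d` are a non-contracting embedding with
distortion at most `((1 + ε) / (1 - ε)) ^ (1 / p)`.
-/

open scoped BigOperators

namespace Vale.Agent.Lib.P249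

theorem toReal_pos_of_fact (p : ENNReal) [Fact (1 ≤ p)] (hp : p ≠ ⊤) : 0 < p.toReal := by
  have h1 : (1 : ENNReal) ≤ p := Fact.out
  exact ENNReal.toReal_pos (ne_of_gt (lt_of_lt_of_le one_pos h1)) hp

theorem dist_piLp_eq (p : ENNReal) [Fact (1 ≤ p)] (hp : p ≠ ⊤) {m : ℕ}
    (a b : PiLp p (fun _ : Fin m => ℝ)) :
    dist a b = (∑ k, |a k - b k| ^ p.toReal) ^ (1 / p.toReal) := by
  rw [PiLp.dist_eq_sum (toReal_pos_of_fact p hp)]
  simp [Real.dist_eq]

/-- The gluing lemma. -/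
theorem embed_of_weights (p : ENNReal) [Fact (1 ≤ p)] (hp : p ≠ ⊤) {n m d : ℕ}
    (x : Fin n → PiLp p (fun _ : Fin m => ℝ)) (κ : Fin d → Fin m) (c : Fin d → ℝ)
    (hc : ∀ l, 0 ≤ c l) (ε : ℝ) (hε0 : 0 < ε) (hε1 : ε < 1)
    (h : ∀ i j,
      (1 - ε) * ∑ k, |x i k - x j k| ^ p.toReal ≤
          ∑ l, |x i (κ l) - x j (κ l)| ^ p.toReal * c l ∧
        ∑ l, |x i (κ l) - x j (κ l)| ^ p.toReal * c l ≤
          (1 + ε) * ∑ k, |x i k - x j k| ^ p.toReal) :
    ∃ y : Fin n → PiLp p (fun _ : Fin d => ℝ), ∀ i j,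
      dist (x i) (x j) ≤ dist (y i) (y j) ∧
        dist (y i) (y j) ≤ ((1 + ε) / (1 - ε)) ^ (1 / p.toReal) * dist (x i) (x j) := by
  have hq : 0 < p.toReal := toReal_pos_of_fact p hp
  have h1ε : 0 < 1 - ε := by linarith
  refine ⟨fun i => WithLp.toLp p (fun l => (c l / (1 - ε)) ^ (1 / p.toReal) * x i (κ l)), ?_⟩
  intro i j
  have hcl : ∀ l, 0 ≤ c l / (1 - ε) := fun l => div_nonneg (hc l) h1ε.le
  have key : ∑ l, |(c l / (1 - ε)) ^ (1 / p.toReal) * x i (κ l) -
        (c l / (1 - ε)) ^ (1 / p.toReal) * x j (κ l)| ^ p.toReal =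
      (1 / (1 - ε)) * ∑ l, |x i (κ l) - x j (κ l)| ^ p.toReal * c l := by
    rw [Finset.mul_sum]
    refine Finset.sum_congr rfl fun l _ => ?_
    rw [← mul_sub, abs_mul, Real.mul_rpow (abs_nonneg _) (abs_nonneg _),
      abs_of_nonneg (Real.rpow_nonneg (hcl l) _), ← Real.rpow_mul (hcl l),
      one_div, inv_mul_cancel₀ hq.ne', Real.rpow_one]
    field_simp
  have hS0 : 0 ≤ ∑ k, |x i k - x j k| ^ p.toReal :=
    Finset.sum_nonneg fun k _ => Real.rpow_nonneg (abs_nonneg _) _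
  rw [dist_piLp_eq p hp, dist_piLp_eq p hp]
  rw [key]
  obtain ⟨hlo, hhi⟩ := h i j
  constructor
  · apply Real.rpow_le_rpow hS0 _ (by positivity)
    rw [one_div, inv_mul_eq_div, le_div_iff₀ h1ε]
    linarith
  · have h2 : (0 : ℝ) ≤ (1 + ε) / (1 - ε) := by positivity
    rw [← Real.mul_rpow h2 hS0]
    have hT0 : 0 ≤ ∑ l, |x i (κ l) - x j (κ l)| ^ p.toReal * c l :=
      Finset.sum_nonneg fun l _ => mul_nonneg (Real.rpow_nonneg (abs_nonneg _) _) (hc l)
    apply Real.rpow_le_rpow (mul_nonneg (by positivity) hT0) _ (by positivity)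
    rw [one_div, inv_mul_eq_div, div_le_iff₀ h1ε]
    have : (1 + ε) / (1 - ε) * (∑ k, |x i k - x j k| ^ p.toReal) * (1 - ε) =
        (1 + ε) * ∑ k, |x i k - x j k| ^ p.toReal := by
      field_simp
    linarith

/-- The accuracy parameter belonging to a target distortion `D > 1`. -/
noncomputable def epsOf (D : ℝ) : ℝ := (D - 1) / (D + 1)

theorem epsOf_pos {D : ℝ} (hD : 1 < D) : 0 < epsOf D := by
  unfold epsOf
  apply div_pos <;> linarith

theorem epsOf_lt_one {D : ℝ} (hD : 1 < D) : epsOf D < 1 := by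
  unfold epsOf
  rw [div_lt_one (by linarith)]
  linarith

theorem epsOf_ratio {D : ℝ} (hD : 1 < D) : (1 + epsOf D) / (1 - epsOf D) = D := by
  unfold epsOf
  have h1 : D + 1 ≠ 0 := by linarith
  field_simp
  ring

/-- Final form: a weighted coordinate sample that is accurate up to `1 ± epsOf D` gives an
embedding into `ℓ_p^d` that does not contract and expands by at most `D`. -/
theorem embed_of_weights_D (p : ENNReal) [Fact (1 ≤ p)] (hp : p ≠ ⊤) (D : ℝ) (hD : 1 < D)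
    {n m d : ℕ} (x : Fin n → PiLp p (fun _ : Fin m => ℝ)) (κ : Fin d → Fin m) (c : Fin d → ℝ)
    (hc : ∀ l, 0 ≤ c l)
    (h : ∀ i j,
      (1 - epsOf D) * ∑ k, |x i k - x j k| ^ p.toReal ≤
          ∑ l, |x i (κ l) - x j (κ l)| ^ p.toReal * c l ∧
        ∑ l, |x i (κ l) - x j (κ l)| ^ p.toReal * c l ≤
          (1 + epsOf D) * ∑ k, |x i k - x j k| ^ p.toReal) :
    ∃ y : Fin n → PiLp p (fun _ : Fin d => ℝ), ∀ i j,
      dist (x i) (x j) ≤ dist (y i) (y j) ∧ dist (y i) (y j) ≤ D * dist (x i) (x j) := by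
  obtain ⟨y, hy⟩ := embed_of_weights p hp x κ c hc (epsOf D) (epsOf_pos hD) (epsOf_lt_one hD) h
  refine ⟨y, fun i j => ⟨(hy i j).1, (hy i j).2.trans ?_⟩⟩
  rw [epsOf_ratio hD]
  have h1 : (1 : ENNReal) ≤ p := Fact.out
  have hq1 : 1 ≤ p.toReal := by
    have := ENNReal.toReal_mono hp h1
    simpa using this
  have hle : D ^ (1 / p.toReal) ≤ D := by
    calc D ^ (1 / p.toReal) ≤ D ^ (1 : ℝ) :=
          Real.rpow_le_rpow_of_exponent_le hD.le (by
            rw [div_le_one (by linarith)]; exact hq1)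
      _ = D := Real.rpow_one D
  exact mul_le_mul_of_nonneg_right hle dist_nonneg

end Vale.Agent.Lib.P249
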