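import Mathlib

/-!
# From the grid lower bound to a lower bound for every number of points (helper5, P249)

`all_n_of_grid`: if for every `k ≥ 1` there are `(6k+1)^k` distinct points of some `ℓ_p^m`
every embedding of which into `ℓ_p^d` with distortion `D` needs
`(1/11) (2k/(3p²))^(p/2) ≤ D^p d` (the statement of the grid lower bound, taken as a
hypothesis), then for every `n ≥ 16` there are `n` distinct points of some `ℓ_p^m` every
embedding of which needs `(1/11) (log n / (9 p² log log n))^(p/2) ≤ D^p d`.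
-/

namespace Vale.Agent.Lib.P249.H5a

/-- the largest `k` with `(6k+1)^k ≤ n` -/
theorem exists_k (n : ℕ) (hn : 7 ≤ n) :
    ∃ k : ℕ, 1 ≤ k ∧ (6 * k + 1) ^ k ≤ n ∧ n < (6 * (k + 1) + 1) ^ (k + 1) := by
  classical
  have hP1 : (6 * 1 + 1) ^ 1 ≤ n := by simpa using hn
  have h1n : 1 ≤ n := by omega
  refine ⟨Nat.findGreatest (fun k => (6 * k + 1) ^ k ≤ n) n,
    Nat.le_findGreatest h1n hP1,
    Nat.findGreatest_spec (P := fun k => (6 * k + 1) ^ k ≤ n) h1n hP1, ?_⟩
  by_contra hcon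
  rw [not_lt] at hcon
  set k := Nat.findGreatest (fun k => (6 * k + 1) ^ k ≤ n) n with hkdef
  have hk1 : k + 1 ≤ n := by
    have h2 : k + 1 < (6 * (k + 1) + 1) ^ (k + 1) := by
      calc k + 1 < 6 * (k + 1) + 1 := by omega
        _ = (6 * (k + 1) + 1) ^ 1 := (pow_one _).symm
        _ ≤ (6 * (k + 1) + 1) ^ (k + 1) := Nat.pow_le_pow_right (by omega) (by omega)
    omega
  exact Nat.findGreatest_is_greatest (P := fun k => (6 * k + 1) ^ k ≤ n)
    (Nat.lt_succ_self k) hk1 hcon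

theorem exp_one_le_log (n : ℕ) (hn : 16 ≤ n) : Real.exp 1 ≤ Real.log n := by
  have hnr : (16:ℝ) ≤ (n:ℝ) := by exact_mod_cast hn
  have h1 : Real.log 16 ≤ Real.log n := Real.log_le_log (by norm_num) hnr
  have h2 : Real.log (16:ℝ) = 4 * Real.log 2 := by
    rw [show (16:ℝ) = 2 ^ 4 by norm_num, Real.log_pow]; norm_num
  have h3 := Real.log_two_gt_d9
  have h4 := Real.exp_one_lt_d9
  linarith

theorem one_le_loglog (n : ℕ) (hn : 16 ≤ n) : 1 ≤ Real.log (Real.log n) := by
  have := Real.log_le_log (Real.exp_pos 1) (exp_one_le_log n hn)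
  rwa [Real.log_exp] at this

/-- `k` is at least `log n / (6 log log n)` -/
theorem k_lower (n k : ℕ) (hn : 16 ≤ n) (hk : 1 ≤ k) (hlt : n < (6 * (k + 1) + 1) ^ (k + 1)) :
    Real.log n ≤ 6 * Real.log (Real.log n) * k := by
  have hnr : (16:ℝ) ≤ (n:ℝ) := by exact_mod_cast hn
  have hkr : (1:ℝ) ≤ (k:ℝ) := by exact_mod_cast hk
  have hL := exp_one_le_log n hn
  have hLpos : 0 < Real.log n := lt_of_lt_of_le (Real.exp_pos 1) hL
  have hLL := one_le_loglog n hn
  by_contra hcon
  rw [not_le] at hcon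
  have hlt' : (n:ℝ) < ((6 * (k + 1) + 1 : ℕ) : ℝ) ^ (k + 1) := by exact_mod_cast hlt
  have h5 : Real.log n < ((k + 1 : ℕ) : ℝ) * Real.log ((6 * (k + 1) + 1 : ℕ) : ℝ) := by
    have := Real.log_lt_log (by linarith) hlt'
    rwa [Real.log_pow] at this
  have h6 : Real.log ((6 * (k + 1) + 1 : ℕ) : ℝ) ≤ Real.log (13 * (k:ℝ)) := by
    apply Real.log_le_log (by positivity)
    push_cast; linarith
  have h7 : Real.log (13 * (k:ℝ)) ≤ 2 * Real.log (Real.log n) := by
    have h8 : 13 * (k:ℝ) ≤ 13 / 6 * Real.log n := by nlinarith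
    have h9 : Real.log (13 * (k:ℝ)) ≤ Real.log (13 / 6 * Real.log n) :=
      Real.log_le_log (by positivity) h8
    have h10 : Real.log (13 / 6 * Real.log n) = Real.log (13 / 6) + Real.log (Real.log n) :=
      Real.log_mul (by norm_num) hLpos.ne'
    have h11 : Real.log (13 / 6 : ℝ) ≤ 1 := by
      rw [Real.log_le_iff_le_exp (by norm_num)]
      have := Real.exp_one_gt_d9
      linarith
    linarith
  have h12 : 0 ≤ Real.log (13 * (k:ℝ)) := Real.log_nonneg (by linarith)
  have h13 : ((k + 1 : ℕ) : ℝ) ≤ 2 * k := by push_cast; linarith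
  have h14 : ((k + 1 : ℕ) : ℝ) * Real.log ((6 * (k + 1) + 1 : ℕ) : ℝ)
      ≤ 2 * k * (2 * Real.log (Real.log n)) := by
    calc ((k + 1 : ℕ) : ℝ) * Real.log ((6 * (k + 1) + 1 : ℕ) : ℝ)
        ≤ ((k + 1 : ℕ) : ℝ) * Real.log (13 * (k:ℝ)) := by gcongr
      _ ≤ 2 * k * Real.log (13 * (k:ℝ)) := by gcongr
      _ ≤ 2 * k * (2 * Real.log (Real.log n)) := by gcongr
  nlinarith

/-- an injective family of `N` points of an infinite type extends to an injective family of
`n ≥ N` points -/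
theorem extend_inj {E : Type*} [Infinite E] (N n : ℕ) (hNn : N ≤ n) (x : Fin N → E)
    (hx : Function.Injective x) :
    ∃ x' : Fin n → E, Function.Injective x' ∧ ∀ i : Fin N, x' (Fin.castLE hNn i) = x i := by
  classical
  have hinf : (Set.range x)ᶜ.Infinite := (Set.finite_range x).infinite_compl
  refine ⟨fun i => if h : (i : ℕ) < N then x ⟨i, h⟩ else (hinf.natEmbedding _ (i : ℕ) : E),
    ?_, ?_⟩
  · intro i j hij
    simp only at hij
    by_cases hi : (i : ℕ) < N <;> by_cases hj : (j : ℕ) < N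
    · rw [dif_pos hi, dif_pos hj] at hij
      have := hx hij
      exact Fin.ext (by simpa using congrArg Fin.val this)
    · rw [dif_pos hi, dif_neg hj] at hij
      exfalso
      have hmem : (hinf.natEmbedding _ (j : ℕ) : E) ∈ (Set.range x)ᶜ :=
        (hinf.natEmbedding _ (j : ℕ)).2
      exact hmem ⟨_, hij⟩
    · rw [dif_neg hi, dif_pos hj] at hij
      exfalso
      have hmem : (hinf.natEmbedding _ (i : ℕ) : E) ∈ (Set.range x)ᶜ :=
        (hinf.natEmbedding _ (i : ℕ)).2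
      exact hmem ⟨_, hij.symm⟩
    · rw [dif_neg hi, dif_neg hj] at hij
      have := (hinf.natEmbedding _).injective (Subtype.ext hij)
      exact Fin.ext this
  · intro i
    have hi : ((Fin.castLE hNn i : Fin n) : ℕ) < N := by simp
    simp only [dif_pos hi]
    rfl

/-- The grid lower bound for every number `n ≥ 16` of points, in terms of `n`. -/
theorem all_n_of_grid (p : ENNReal) [Fact (1 ≤ p)] (hp : p ≠ ⊤) (hp2 : 2 ≤ p)
    (grid : ∀ k : ℕ, 1 ≤ k →
      ∃ (m : ℕ) (x : Fin ((6 * k + 1) ^ k) → PiLp p (fun _ : Fin m => ℝ)), Function.Injective x ∧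
        ∀ (d : ℕ) (y : Fin ((6 * k + 1) ^ k) → PiLp p (fun _ : Fin d => ℝ)) (s D : ℝ), 0 < s →
          (∀ i j, s * dist (x i) (x j) ≤ dist (y i) (y j) ∧
            dist (y i) (y j) ≤ D * s * dist (x i) (x j)) →
          (1 / 11 : ℝ) * (2 * k / (3 * p.toReal ^ 2)) ^ (p.toReal / 2) ≤ D ^ p.toReal * d)
    (n : ℕ) (hn : 16 ≤ n) :
    ∃ (m : ℕ) (x : Fin n → PiLp p (fun _ : Fin m => ℝ)), Function.Injective x ∧
      ∀ (d : ℕ) (y : Fin n → PiLp p (fun _ : Fin d => ℝ)) (s D : ℝ), 0 < s →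
        (∀ i j, s * dist (x i) (x j) ≤ dist (y i) (y j) ∧
          dist (y i) (y j) ≤ D * s * dist (x i) (x j)) →
        (1 / 11 : ℝ) * (Real.log n / (9 * p.toReal ^ 2 * Real.log (Real.log n))) ^ (p.toReal / 2)
          ≤ D ^ p.toReal * d := by
  obtain ⟨k, hk1, hkn, hlt⟩ := exists_k n (by omega)
  obtain ⟨m, x, hx, hgrid⟩ := grid k hk1
  have hN2 : 2 ≤ (6 * k + 1) ^ k := by
    calc 2 ≤ 6 * k + 1 := by omega
      _ = (6 * k + 1) ^ 1 := (pow_one _).symm
      _ ≤ (6 * k + 1) ^ k := Nat.pow_le_pow_right (by omega) hk1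
  have : Infinite (PiLp p (fun _ : Fin m => ℝ)) := by
    have hne : x ⟨0, by omega⟩ ≠ x ⟨1, by omega⟩ := fun h => by
      have := hx h
      simp [Fin.ext_iff] at this
    have hv : x ⟨0, by omega⟩ - x ⟨1, by omega⟩ ≠ 0 := sub_ne_zero.mpr hne
    exact Infinite.of_injective (fun t : ℝ => t • (x ⟨0, by omega⟩ - x ⟨1, by omega⟩))
      (smul_left_injective ℝ hv)
  obtain ⟨x', hx', hext⟩ := extend_inj _ n hkn x hx
  refine ⟨m, x', hx', ?_⟩
  intro d y s D hs hy
  have h1 := hgrid d (fun i => y (Fin.castLE hkn i)) s D hs (fun i j => by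
    have := hy (Fin.castLE hkn i) (Fin.castLE hkn j)
    rw [hext, hext] at this
    exact this)
  have hkl := k_lower n k hn hk1 hlt
  have hLpos : 0 < Real.log n := lt_of_lt_of_le (Real.exp_pos 1) (exp_one_le_log n hn)
  have hLL : 0 < Real.log (Real.log n) := lt_of_lt_of_le one_pos (one_le_loglog n hn)
  have hpr : 2 ≤ p.toReal := by
    have := ENNReal.toReal_mono hp hp2
    simpa using this
  have hp2pos : 0 < p.toReal ^ 2 := by positivity
  have hbase : Real.log n / (9 * p.toReal ^ 2 * Real.log (Real.log n))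
      ≤ 2 * k / (3 * p.toReal ^ 2) := by
    rw [div_le_div_iff₀ (by positivity) (by positivity)]
    have := mul_le_mul_of_nonneg_left hkl (by positivity : (0:ℝ) ≤ 3 * p.toReal ^ 2)
    nlinarith
  have hmono : (Real.log n / (9 * p.toReal ^ 2 * Real.log (Real.log n))) ^ (p.toReal / 2)
      ≤ (2 * k / (3 * p.toReal ^ 2)) ^ (p.toReal / 2) :=
    Real.rpow_le_rpow (div_nonneg hLpos.le (by positivity)) hbase (by positivity)
  linarith

end Vale.Agent.Lib.P249.H5a
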