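import Vale.Agent.Lib.P249.helper62.GridDefs

/-!
# Finite core of the grid lower bound, from its five lemmas (helper5; backup of `grid_core`)

`grid_core_of` proves the statement of `grid_core` of helper62's skeleton (reports id 2004)
from the statements of `khin_upper`, `khin_lower`, `grid_conc`, `grid_spread`, `gZ_defect`
of the same skeleton, taken as hypotheses.
-/

open Finset
open Vale.Agent.Lib.P249.H62

namespace Vale.Agent.Lib.P249.H5c

/-- real arithmetic at the end of the grid core -/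
theorem core_arith (sq tk Z2 Zp e dr E A B T R Cs W : ℝ)
    (hsq : 0 < sq) (htk : 0 < tk) (hZ2 : 0 < Z2) (_he0 : 0 < e) (he : e ≤ 11 / 4)
    (hdr : 0 ≤ dr) (hE : 0 ≤ E) (hA : 0 ≤ A) (hB : 0 ≤ B) (hT : 0 < T)
    (hZp : Zp ≤ e * Z2) (hBA : B * A = T) (hCs : Cs = R * T)
    (hspread : Z2 * Cs ≤ W)
    (hlow : sq * tk * W ≤ dr * (2 * Zp * B * (E * sq * 2 * tk * A))) :
    (1 / 11 : ℝ) * R ≤ E * dr := by
  have hP : 0 < sq * tk * Z2 := by positivity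
  have h1 : sq * tk * (Z2 * Cs) ≤ sq * tk * W := by gcongr
  have h2 : dr * (2 * Zp * B * (E * sq * 2 * tk * A))
      ≤ dr * (2 * (e * Z2) * B * (E * sq * 2 * tk * A)) := by
    have h0 : 0 ≤ E * sq * 2 * tk * A := by positivity
    gcongr
  have h3 : (sq * tk * Z2) * (R * T) ≤ (sq * tk * Z2) * (4 * e * dr * E * T) := by
    calc (sq * tk * Z2) * (R * T) = sq * tk * (Z2 * Cs) := by rw [hCs]; ring
      _ ≤ sq * tk * W := h1
      _ ≤ dr * (2 * Zp * B * (E * sq * 2 * tk * A)) := hlow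
      _ ≤ dr * (2 * (e * Z2) * B * (E * sq * 2 * tk * A)) := h2
      _ = (sq * tk * Z2) * (4 * e * dr * E * (B * A)) := by ring
      _ = (sq * tk * Z2) * (4 * e * dr * E * T) := by rw [hBA]
  have h4 : R * T ≤ 4 * e * dr * E * T := le_of_mul_le_mul_left h3 hP
  have h5 : R ≤ 4 * e * dr * E := le_of_mul_le_mul_right h4 hT
  have h6 : 0 ≤ dr * E := mul_nonneg hdr hE
  nlinarith [mul_nonneg (sub_nonneg.mpr he) h6]

/-- The finite core of the grid lower bound, from the five lemmas of the skeleton. -/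
theorem grid_core_of
    (khin_upper : ∀ (k : ℕ) (q : ℝ) (_ : 0 < q) (c : Fin k → ℝ),
      ∑ e : Fin k → Bool, |∑ j, c j * sg (e j)| ^ q
        ≤ 2 * 2 ^ k * (q * (∑ j, c j ^ 2) / Real.exp 1) ^ (q / 2))
    (khin_lower : ∀ (k : ℕ) (q : ℝ) (_ : 2 ≤ q) (c : Fin k → ℝ),
      (2:ℝ) ^ k * (∑ j, c j ^ 2) ^ (q / 2) ≤ ∑ e : Fin k → Bool, |∑ j, c j * sg (e j)| ^ q)
    (grid_conc : ∀ (M : ℕ) (_ : 1 ≤ M) (k : ℕ) (q : ℝ) (_ : 1 ≤ q) (Lam : ℝ) (_ : 0 ≤ Lam)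
      (h : (Fin k → Fin (2 * M + 1)) → ℝ)
      (_ : ∀ x y, |h x - h y| ≤ Lam * Real.sqrt (gdist2 M k x y)),
      ∑ x, ∑ y, gPhi M k x * gPhi M k y * |h x - h y| ^ q
        ≤ 2 * (gZ M + 1) ^ (2 * k) * (q * (M : ℝ) ^ 2 / Real.exp 1) ^ (q / 2) * Lam ^ q)
    (grid_spread : ∀ (M : ℕ) (_ : 1 ≤ M) (k : ℕ) (_ : 1 ≤ k) (q : ℝ) (_ : 2 ≤ q),
      gZ M ^ (2 * k) * (2 * k * (M : ℝ) ^ 2 / (3 * Real.exp 2)) ^ (q / 2)
        ≤ ∑ x, ∑ y, gPhi M k x * gPhi M k y * (gdist2 M k x y) ^ (q / 2))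
    (gZ_defect : ∀ (k : ℕ) (_ : 1 ≤ k),
      (gZ (3 * k) + 1) ^ (2 * k) ≤ Real.exp 1 * gZ (3 * k) ^ (2 * k))
    (k : ℕ) (hk : 1 ≤ k) (q : ℝ) (hq : 2 ≤ q) (d : ℕ) (s D : ℝ) (hs : 0 < s)
    (y : (Fin k → Fin (2 * (3 * k) + 1)) → Fin d → ℝ)
    (hlow : ∀ c c', s ^ q * ∑ e, |gX (3 * k) k c e - gX (3 * k) k c' e| ^ q
      ≤ ∑ i, |y c i - y c' i| ^ q)
    (hup : ∀ c c', ∑ i, |y c i - y c' i| ^ q
      ≤ D ^ q * s ^ q * ∑ e, |gX (3 * k) k c e - gX (3 * k) k c' e| ^ q) :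
    (1 / 11 : ℝ) * (2 * k / (3 * q ^ 2)) ^ (q / 2) ≤ D ^ q * d := by
  have hq0 : 0 < q := by linarith
  have hq1 : 1 ≤ q := by linarith
  have hM : 1 ≤ 3 * k := by omega
  have he0 : 0 < Real.exp 1 := Real.exp_pos 1
  have he : Real.exp 1 ≤ 11 / 4 := by have := Real.exp_one_lt_d9; linarith
  have hkr : (0:ℝ) < (k:ℝ) := by exact_mod_cast hk
  have hMr : (0:ℝ) < ((3 * k : ℕ) : ℝ) := by exact_mod_cast (by omega : 0 < 3 * k)
  have hexp2 : Real.exp 2 = Real.exp 1 ^ 2 := by rw [← Real.exp_nat_mul]; norm_num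
  -- weights
  have hphi : ∀ t, 0 < gphi (3 * k) t := fun t => by unfold gphi; exact Real.exp_pos _
  have hZ : 0 < gZ (3 * k) := by
    unfold gZ
    exact Finset.sum_pos (fun t _ => hphi t) Finset.univ_nonempty
  have hPhi : ∀ x, 0 ≤ gPhi (3 * k) k x := fun x => by
    unfold gPhi; exact Finset.prod_nonneg fun j _ => (hphi _).le
  have hG : ∀ x x', 0 ≤ gdist2 (3 * k) k x x' := fun x x' => by
    unfold gdist2; exact Finset.sum_nonneg fun j _ => sq_nonneg _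
  have hX : ∀ x x' e, gX (3 * k) k x e - gX (3 * k) k x' e
      = ∑ j, (gv (3 * k) (x j) - gv (3 * k) (x' j)) * sg (e j) := by
    intro x x' e
    unfold gX
    rw [← Finset.sum_sub_distrib]
    exact Finset.sum_congr rfl fun j _ => by ring
  have hSe : ∀ x x', 0 ≤ ∑ e, |gX (3 * k) k x e - gX (3 * k) k x' e| ^ q := fun x x' =>
    Finset.sum_nonneg fun e _ => Real.rpow_nonneg (abs_nonneg _) q
  -- constants
  obtain ⟨E, hE⟩ : ∃ E : ℝ, E = max (D ^ q) 0 := ⟨_, rfl⟩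
  have hE0 : 0 ≤ E := hE ▸ le_max_right _ _
  have hDE : D ^ q ≤ E := hE ▸ le_max_left _ _
  have hsq : 0 < s ^ q := Real.rpow_pos_of_pos hs q
  obtain ⟨A, hA⟩ : ∃ A : ℝ, A = (q / Real.exp 1) ^ (q / 2) := ⟨_, rfl⟩
  have hA0 : 0 ≤ A := hA ▸ Real.rpow_nonneg (div_nonneg hq0.le he0.le) _
  obtain ⟨Lamq, hLamq⟩ : ∃ Lamq : ℝ, Lamq = E * s ^ q * 2 * 2 ^ k * A := ⟨_, rfl⟩
  have hLamq0 : 0 ≤ Lamq := by rw [hLamq]; positivity
  obtain ⟨Lam, hLam⟩ : ∃ Lam : ℝ, Lam = Lamq ^ q⁻¹ := ⟨_, rfl⟩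
  have hLam0 : 0 ≤ Lam := hLam ▸ Real.rpow_nonneg hLamq0 _
  have hLampow : Lam ^ q = Lamq := by rw [hLam]; exact Real.rpow_inv_rpow hLamq0 hq0.ne'
  -- Khinchine, both sides, for differences of grid points
  have hup2 : ∀ x x', ∑ e, |gX (3 * k) k x e - gX (3 * k) k x' e| ^ q
      ≤ 2 * 2 ^ k * (A * gdist2 (3 * k) k x x' ^ (q / 2)) := by
    intro x x'
    have h := khin_upper k q hq0 (fun j => gv (3 * k) (x j) - gv (3 * k) (x' j))
    have e1 : (q * (∑ j, (gv (3 * k) (x j) - gv (3 * k) (x' j)) ^ 2) / Real.exp 1) ^ (q / 2)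
        = A * gdist2 (3 * k) k x x' ^ (q / 2) := by
      rw [hA, ← Real.mul_rpow (div_nonneg hq0.le he0.le) (hG x x')]
      congr 1
      unfold gdist2
      ring
    rw [e1] at h
    have e3 : ∑ e, |gX (3 * k) k x e - gX (3 * k) k x' e| ^ q
        = ∑ e : Fin k → Bool, |∑ j, (gv (3 * k) (x j) - gv (3 * k) (x' j)) * sg (e j)| ^ q :=
      Finset.sum_congr rfl fun e _ => by rw [hX]
    rw [e3]
    exact h
  have hlow2 : ∀ x x', (2:ℝ) ^ k * gdist2 (3 * k) k x x' ^ (q / 2)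
      ≤ ∑ e, |gX (3 * k) k x e - gX (3 * k) k x' e| ^ q := by
    intro x x'
    have h := khin_lower k q hq (fun j => gv (3 * k) (x j) - gv (3 * k) (x' j))
    have e2 : gdist2 (3 * k) k x x' = ∑ j, (gv (3 * k) (x j) - gv (3 * k) (x' j)) ^ 2 := by
      unfold gdist2; rfl
    have e3 : ∑ e, |gX (3 * k) k x e - gX (3 * k) k x' e| ^ q
        = ∑ e : Fin k → Bool, |∑ j, (gv (3 * k) (x j) - gv (3 * k) (x' j)) * sg (e j)| ^ q :=
      Finset.sum_congr rfl fun e _ => by rw [hX]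
    rw [e2, e3]
    exact h
  -- every coordinate is Lipschitz
  have hlip : ∀ i x x', |y x i - y x' i| ≤ Lam * Real.sqrt (gdist2 (3 * k) k x x') := by
    intro i x x'
    have h1 : |y x i - y x' i| ^ q ≤ Lamq * gdist2 (3 * k) k x x' ^ (q / 2) := by
      calc |y x i - y x' i| ^ q ≤ ∑ i', |y x i' - y x' i'| ^ q :=
            Finset.single_le_sum (f := fun i' => |y x i' - y x' i'| ^ q)
              (fun i' _ => Real.rpow_nonneg (abs_nonneg _) q) (Finset.mem_univ i)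
        _ ≤ D ^ q * s ^ q * ∑ e, |gX (3 * k) k x e - gX (3 * k) k x' e| ^ q := hup x x'
        _ ≤ E * s ^ q * ∑ e, |gX (3 * k) k x e - gX (3 * k) k x' e| ^ q := by
            have := hSe x x'
            gcongr
        _ ≤ E * s ^ q * (2 * 2 ^ k * (A * gdist2 (3 * k) k x x' ^ (q / 2))) := by
            have := hup2 x x'
            gcongr
        _ = Lamq * gdist2 (3 * k) k x x' ^ (q / 2) := by rw [hLamq]; ring
    have h2 : (Lam * Real.sqrt (gdist2 (3 * k) k x x')) ^ q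
        = Lamq * gdist2 (3 * k) k x x' ^ (q / 2) := by
      rw [Real.mul_rpow hLam0 (Real.sqrt_nonneg _), hLampow, Real.sqrt_eq_rpow,
        ← Real.rpow_mul (hG x x')]
      congr 2
      ring
    exact (Real.rpow_le_rpow_iff (abs_nonneg _) (mul_nonneg hLam0 (Real.sqrt_nonneg _)) hq0).mp
      (h1.trans h2.ge)
  -- concentration for each coordinate
  have hconc : ∀ i, ∑ x, ∑ x', gPhi (3 * k) k x * gPhi (3 * k) k x' * |y x i - y x' i| ^ q
      ≤ 2 * (gZ (3 * k) + 1) ^ (2 * k)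
        * (q * ((3 * k : ℕ) : ℝ) ^ 2 / Real.exp 1) ^ (q / 2) * Lamq := by
    intro i
    have h := grid_conc (3 * k) hM k q hq1 Lam hLam0 (fun c => y c i) (hlip i)
    rw [hLampow] at h
    exact h
  -- the lower side, summed with the weights
  have hD : s ^ q * 2 ^ k *
      (∑ x, ∑ x', gPhi (3 * k) k x * gPhi (3 * k) k x' * gdist2 (3 * k) k x x' ^ (q / 2))
      ≤ (d : ℝ) * (2 * (gZ (3 * k) + 1) ^ (2 * k)
        * (q * ((3 * k : ℕ) : ℝ) ^ 2 / Real.exp 1) ^ (q / 2) * Lamq) := by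
    calc s ^ q * 2 ^ k *
          (∑ x, ∑ x', gPhi (3 * k) k x * gPhi (3 * k) k x' * gdist2 (3 * k) k x x' ^ (q / 2))
        = ∑ x, ∑ x', gPhi (3 * k) k x * gPhi (3 * k) k x' *
            (s ^ q * (2 ^ k * gdist2 (3 * k) k x x' ^ (q / 2))) := by
          rw [Finset.mul_sum]
          refine Finset.sum_congr rfl fun x _ => ?_
          rw [Finset.mul_sum]
          refine Finset.sum_congr rfl fun x' _ => ?_
          ring
      _ ≤ ∑ x, ∑ x', gPhi (3 * k) k x * gPhi (3 * k) k x' * ∑ i, |y x i - y x' i| ^ q := by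
          refine Finset.sum_le_sum fun x _ => Finset.sum_le_sum fun x' _ => ?_
          apply mul_le_mul_of_nonneg_left _ (mul_nonneg (hPhi x) (hPhi x'))
          calc s ^ q * (2 ^ k * gdist2 (3 * k) k x x' ^ (q / 2))
              ≤ s ^ q * ∑ e, |gX (3 * k) k x e - gX (3 * k) k x' e| ^ q := by
                have := hlow2 x x'
                gcongr
            _ ≤ ∑ i, |y x i - y x' i| ^ q := hlow x x'
      _ = ∑ i, ∑ x, ∑ x', gPhi (3 * k) k x * gPhi (3 * k) k x' * |y x i - y x' i| ^ q := by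
          calc ∑ x, ∑ x', gPhi (3 * k) k x * gPhi (3 * k) k x' * ∑ i, |y x i - y x' i| ^ q
              = ∑ x, ∑ x', ∑ i, gPhi (3 * k) k x * gPhi (3 * k) k x' * |y x i - y x' i| ^ q := by
                refine Finset.sum_congr rfl fun x _ => Finset.sum_congr rfl fun x' _ => ?_
                rw [Finset.mul_sum]
            _ = ∑ x, ∑ i, ∑ x', gPhi (3 * k) k x * gPhi (3 * k) k x' * |y x i - y x' i| ^ q :=
                Finset.sum_congr rfl fun x _ => Finset.sum_comm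
            _ = ∑ i, ∑ x, ∑ x', gPhi (3 * k) k x * gPhi (3 * k) k x' * |y x i - y x' i| ^ q :=
                Finset.sum_comm
      _ ≤ ∑ _i : Fin d, (2 * (gZ (3 * k) + 1) ^ (2 * k)
            * (q * ((3 * k : ℕ) : ℝ) ^ 2 / Real.exp 1) ^ (q / 2) * Lamq) :=
          Finset.sum_le_sum fun i _ => hconc i
      _ = (d : ℝ) * (2 * (gZ (3 * k) + 1) ^ (2 * k)
            * (q * ((3 * k : ℕ) : ℝ) ^ 2 / Real.exp 1) ^ (q / 2) * Lamq) := by
          simp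
  have hspread := grid_spread (3 * k) hM k hk q hq
  have hdef := gZ_defect k hk
  -- assemble
  obtain ⟨Mr, hMrdef⟩ : ∃ Mr : ℝ, Mr = ((3 * k : ℕ) : ℝ) := ⟨_, rfl⟩
  rw [← hMrdef] at hD hspread hMr
  have hT : 0 < (q ^ 2 * Mr ^ 2 / Real.exp 1 ^ 2) ^ (q / 2) :=
    Real.rpow_pos_of_pos (by positivity) _
  have hBA : (q * Mr ^ 2 / Real.exp 1) ^ (q / 2) * A
      = (q ^ 2 * Mr ^ 2 / Real.exp 1 ^ 2) ^ (q / 2) := by
    rw [hA, ← Real.mul_rpow (by positivity) (by positivity)]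
    congr 1
    field_simp
  have hCs : (2 * (k:ℝ) * Mr ^ 2 / (3 * Real.exp 2)) ^ (q / 2)
      = (2 * (k:ℝ) / (3 * q ^ 2)) ^ (q / 2) * (q ^ 2 * Mr ^ 2 / Real.exp 1 ^ 2) ^ (q / 2) := by
    rw [← Real.mul_rpow (by positivity) (by positivity), hexp2]
    congr 1
    field_simp
  have hR : 0 < (2 * (k:ℝ) / (3 * q ^ 2)) ^ (q / 2) := Real.rpow_pos_of_pos (by positivity) _
  have hmain := core_arith (s ^ q) (2 ^ k) (gZ (3 * k) ^ (2 * k)) ((gZ (3 * k) + 1) ^ (2 * k))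
    (Real.exp 1) (d : ℝ) E A ((q * Mr ^ 2 / Real.exp 1) ^ (q / 2))
    ((q ^ 2 * Mr ^ 2 / Real.exp 1 ^ 2) ^ (q / 2)) ((2 * (k:ℝ) / (3 * q ^ 2)) ^ (q / 2))
    ((2 * (k:ℝ) * Mr ^ 2 / (3 * Real.exp 2)) ^ (q / 2))
    (∑ x, ∑ x', gPhi (3 * k) k x * gPhi (3 * k) k x' * gdist2 (3 * k) k x x' ^ (q / 2))
    hsq (by positivity) (pow_pos hZ _) he0 he (Nat.cast_nonneg d) hE0 hA0
    (Real.rpow_nonneg (by positivity) _) hT hdef hBA hCs hspread
    (by rw [hLamq] at hD; exact hD)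
  rcases le_or_gt 0 (D ^ q) with hD0 | hD0
  · rw [hE, max_eq_left hD0] at hmain
    exact hmain
  · rw [hE, max_eq_right hD0.le] at hmain
    linarith
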