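import Vale.Agent.Lib.P249.helper5.Tensor

/-!
# Pair form of the concentration inequality on the grid (helper5; pool job 231 = P249-GRID-E, copy)

`grid_pair_of`: the statement of `grid_pair` of helper62's skeleton (report 2004), with the
one-coordinate inequality `grid_one` (job GRID-C) as an explicit hypothesis; `tensor` is used
from `Vale.Agent.Lib.P249.helper5.Tensor`.
-/

open Finset
open Vale.Agent.Lib.P249.H62

namespace Vale.Agent.Lib.P249.H5t

/-- `grid_pair` from `grid_one` (given as a hypothesis, for the one `M` in question). -/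
theorem grid_pair_of (M : ℕ)
    (hone : ∀ (a b : Fin (2 * M + 1) → ℝ) (N : ℝ),
      (∀ t, 0 ≤ a t) → (∀ t, 0 ≤ b t) → 0 ≤ N →
      (∀ t t', b t * a t' ≤ N * Real.exp ((gv M t - gv M t') ^ 2 / (2 * (M : ℝ) ^ 2))) →
      (∑ t, gphi M t * b t) * (∑ t, gphi M t * a t) ≤ N * (gZ M + 1) ^ 2)
    (k : ℕ) (f g : (Fin k → Fin (2 * M + 1)) → ℝ)
    (h : ∀ x y, g x ≤ f y + gdist2 M k x y / (2 * (M : ℝ) ^ 2)) :
    (∑ x, gPhi M k x * Real.exp (g x)) * (∑ y, gPhi M k y * Real.exp (-f y))
      ≤ (gZ M + 1) ^ (2 * k) := by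
  have hphi : ∀ t, 0 ≤ gphi M t := fun t => by unfold gphi; exact (Real.exp_pos _).le
  have hT := tensor (gphi M) hphi
    (fun t t' => (gv M t - gv M t') ^ 2 / (2 * (M : ℝ) ^ 2)) ((gZ M + 1) ^ 2) (sq_nonneg _)
    hone
    k (fun y => Real.exp (-f y)) (fun x => Real.exp (g x)) 1
    (fun y => (Real.exp_pos _).le) (fun x => (Real.exp_pos _).le) zero_le_one
    (fun x y => by
      rw [one_mul, ← Real.exp_add]
      apply Real.exp_le_exp.mpr
      have h2 := h x y
      unfold gdist2 at h2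
      rw [Finset.sum_div] at h2
      linarith)
  rw [one_mul, ← pow_mul] at hT
  unfold gPhi
  exact hT

end Vale.Agent.Lib.P249.H5t
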