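import Mathlib

/-!
# P249: dimension reduction with additive error for incompressible families (glue, helper5)

Backup copy of part (C) of helper21's proof (report 2450): from the finite case (hypothesis `hA`,
the exact statement of pool job 277 `incomp_fin`) and the passage from simple functions to points
of `R^m` with a coordinatewise bound (hypothesis `hB`, the exact statement of pool job 278
`simple_dom` at the given measure and exponent) to the statement for arbitrary points of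
`L_p(μ)` dominated by one function of norm at most `K`:
there are `d ≤ 170 (2K)^(2p) log n / ε^2` and points `y i` of `ℓ_p^d` with
`| ‖y i - y j‖^p - ‖f i - f j‖^p | ≤ ε` for all `i, j`.
-/

open MeasureTheory

namespace Vale.Agent.Lib.P249.H5inc

/-- Mean value bound for powers: `|a^q - b^q| ≤ q c^(q-1) |a - b|` for `0 ≤ a, b ≤ c`, `q ≥ 1`. -/
theorem abs_rpow_sub_rpow_le (q : ℝ) (hq : 1 ≤ q) (a b c : ℝ) (ha : 0 ≤ a) (hb : 0 ≤ b)
    (hac : a ≤ c) (hbc : b ≤ c) :
    |a ^ q - b ^ q| ≤ q * c ^ (q - 1) * |a - b| := by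
  have hc : 0 ≤ c := le_trans ha hac
  have key := Convex.norm_image_sub_le_of_norm_deriv_le (𝕜 := ℝ) (f := fun x : ℝ => x ^ q)
    (C := q * c ^ (q - 1)) (s := Set.Icc 0 c) (x := b) (y := a)
    (fun x _ => (Real.hasDerivAt_rpow_const (Or.inr hq)).differentiableAt)
    (fun x hx => by
      rw [Real.deriv_rpow_const, Real.norm_eq_abs, abs_mul, abs_of_nonneg (by linarith : (0:ℝ) ≤ q),
        abs_of_nonneg (Real.rpow_nonneg hx.1 _)]
      exact mul_le_mul_of_nonneg_left (Real.rpow_le_rpow hx.1 hx.2 (by linarith)) (by linarith))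
    (convex_Icc 0 c) ⟨hb, hbc⟩ ⟨ha, hac⟩
  simpa [Real.norm_eq_abs] using key

theorem exp_small : Real.exp (1 / 162) ≤ 82 / 81 := by
  have h := Real.exp_bound_div_one_sub_of_interval' (x := 1 / 162) (by norm_num) (by norm_num)
  have h2 : (1 : ℝ) / (1 - 1 / 162) ≤ 82 / 81 := by norm_num
  linarith

theorem incompressible_of {α : Type*} [MeasurableSpace α] (μ : Measure α) (p : ENNReal)
    [Fact (1 ≤ p)] (hp : p ≠ ⊤)
    (hA : ∀ (r : ℝ), 1 ≤ r → ∀ (m n : ℕ), 2 ≤ n → ∀ (x : Fin n → Fin m → ℝ) (M : Fin m → ℝ),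
      (∀ i k, |x i k| ≤ M k) → ∀ K : ℝ, 0 ≤ K → ∑ k, M k ^ r ≤ K ^ r →
      ∀ ε : ℝ, 0 < ε → ε < (2 * K) ^ r →
      ∃ (d : ℕ) (y : Fin n → Fin d → ℝ),
        (d : ℝ) ≤ 128 * (2 * K) ^ (2 * r) * Real.log n / ε ^ 2 + 1 ∧
        ∀ i j, |∑ l, |y i l - y j l| ^ r - ∑ k, |x i k - x j k| ^ r| ≤ ε)
    (hB : ∀ (n : ℕ) (s : Fin n → Lp.simpleFunc ℝ p μ) (h : α → ℝ),
      (∀ i, ∀ᵐ a ∂μ, |(s i : Lp ℝ p μ) a| ≤ h a) → ∀ K : ℝ, 0 ≤ K →
      eLpNorm h p μ ≤ ENNReal.ofReal K →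
      ∃ (m : ℕ) (x : Fin n → Fin m → ℝ) (M : Fin m → ℝ),
        (∀ i k, |x i k| ≤ M k) ∧ ∑ k, M k ^ p.toReal ≤ K ^ p.toReal ∧
        ∀ i j, ∑ k, |x i k - x j k| ^ p.toReal =
          dist (s i : Lp ℝ p μ) (s j : Lp ℝ p μ) ^ p.toReal)
    (K ε : ℝ) (hε : 0 < ε) (n : ℕ)
    (f : Fin n → Lp ℝ p μ) (g : Lp ℝ p μ) (hfg : ∀ i, ∀ᵐ a ∂μ, |f i a| ≤ g a)
    (hg : ‖g‖ ≤ K) :
    ∃ (d : ℕ) (y : Fin n → PiLp p (fun _ : Fin d => ℝ)),
      (d : ℝ) ≤ 170 * (2 * K) ^ (2 * p.toReal) * Real.log n / ε ^ 2 ∧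
      ∀ i j, |dist (y i) (y j) ^ p.toReal - dist (f i) (f j) ^ p.toReal| ≤ ε := by
  classical
  have hp1 : (1 : ENNReal) ≤ p := Fact.out
  have hp0 : p ≠ 0 := (lt_of_lt_of_le zero_lt_one hp1).ne'
  have hq1 : 1 ≤ p.toReal := by
    have := ENNReal.toReal_mono hp hp1
    simpa using this
  have hq0 : 0 < p.toReal := by linarith
  obtain ⟨q, hq⟩ : ∃ q : ℝ, q = p.toReal := ⟨_, rfl⟩
  rw [← hq] at hq1 hq0 ⊢
  have hK0 : 0 ≤ K := le_trans (norm_nonneg g) hg
  have hfn : ∀ i, ‖f i‖ ≤ K := by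
    intro i
    refine le_trans (Lp.norm_le_norm_of_ae_le ?_) hg
    filter_upwards [hfg i] with a ha
    rw [Real.norm_eq_abs, Real.norm_eq_abs]
    exact le_trans ha (le_abs_self _)
  have hdist : ∀ i j, dist (f i) (f j) ≤ 2 * K := by
    intro i j
    rw [dist_eq_norm]
    have := norm_sub_le (f i) (f j)
    linarith [hfn i, hfn j]
  have hL0 : 0 ≤ Real.log n := Real.log_natCast_nonneg n
  have hbound0 : 0 ≤ 170 * (2 * K) ^ (2 * q) * Real.log n / ε ^ 2 := by
    have : 0 ≤ (2 * K) ^ (2 * q) := Real.rpow_nonneg (by positivity) _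
    positivity
  have hzq : (0 : ℝ) ^ q = 0 := Real.zero_rpow hq0.ne'
  by_cases htriv : n ≤ 1 ∨ (2 * K) ^ q ≤ ε
  · refine ⟨0, fun _ => 0, by simpa using hbound0, fun i j => ?_⟩
    rw [dist_self, hzq, zero_sub, abs_neg, abs_of_nonneg (Real.rpow_nonneg dist_nonneg _)]
    rcases htriv with h | h
    · have hij : i = j := by
        apply Fin.ext
        have := i.2
        have := j.2
        omega
      rw [hij, dist_self, hzq]
      exact hε.le
    · exact le_trans (Real.rpow_le_rpow dist_nonneg (hdist i j) hq0.le) h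
  rw [not_or, not_le, not_le] at htriv
  obtain ⟨hn2, hεK⟩ := htriv
  have hKpos : 0 < K := by
    by_contra hK
    have hK' : K = 0 := le_antisymm (not_lt.mp hK) hK0
    rw [hK', mul_zero, hzq] at hεK
    linarith
  have hnpos : (0 : ℝ) < n := by exact_mod_cast (by omega : 0 < n)
  have hn1 : (1 : ℝ) ≤ n := by exact_mod_cast (by omega : 1 ≤ n)
  have h3K : 0 < (3 * K) ^ (q - 1) := Real.rpow_pos_of_pos (by positivity) _
  obtain ⟨η, hη0, hη1, hη2⟩ : ∃ η : ℝ, 0 < η ∧ η ≤ K / (324 * q * n) ∧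
      η ≤ ε / (18 * q * (3 * K) ^ (q - 1)) :=
    ⟨min (K / (324 * q * n)) (ε / (18 * q * (3 * K) ^ (q - 1))),
      lt_min (by positivity) (by positivity), min_le_left _ _, min_le_right _ _⟩
  -- simple approximations
  have hdense : ∀ F : Lp ℝ p μ, ∃ s : Lp.simpleFunc ℝ p μ, dist F (s : Lp ℝ p μ) < η := by
    intro F
    obtain ⟨s, hs⟩ := (Lp.simpleFunc.denseRange (E := ℝ) (μ := μ) hp).exists_dist_lt F hη0
    exact ⟨s, hs⟩
  choose s0 hs0 using hdense
  obtain ⟨s, hs⟩ : ∃ s : Fin n → Lp.simpleFunc ℝ p μ, ∀ i, dist (f i) (s i : Lp ℝ p μ) < η :=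
    ⟨fun i => s0 (f i), fun i => hs0 (f i)⟩
  -- the dominating function
  obtain ⟨h, hh⟩ : ∃ h : α → ℝ, h = fun a => g a + ∑ i, ‖((s i : Lp ℝ p μ) - f i : Lp ℝ p μ) a‖ :=
    ⟨_, rfl⟩
  have hdom : ∀ i, ∀ᵐ a ∂μ, |(s i : Lp ℝ p μ) a| ≤ h a := by
    intro i
    filter_upwards [hfg i, Lp.coeFn_sub (s i : Lp ℝ p μ) (f i)] with a ha hsub
    have h1 : ‖((s i : Lp ℝ p μ) - f i : Lp ℝ p μ) a‖ ≤
        ∑ j, ‖((s j : Lp ℝ p μ) - f j : Lp ℝ p μ) a‖ :=
      Finset.single_le_sum (f := fun j => ‖((s j : Lp ℝ p μ) - f j : Lp ℝ p μ) a‖)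
        (fun j _ => norm_nonneg _) (Finset.mem_univ i)
    rw [hsub, Pi.sub_apply, Real.norm_eq_abs] at h1
    have h2 : |(s i : Lp ℝ p μ) a| ≤ |f i a| + |(s i : Lp ℝ p μ) a - f i a| := by
      have := abs_add_le (f i a) ((s i : Lp ℝ p μ) a - f i a)
      simpa using this
    rw [hh]
    show |(s i : Lp ℝ p μ) a| ≤ g a + ∑ j, ‖((s j : Lp ℝ p μ) - f j : Lp ℝ p μ) a‖
    linarith
  obtain ⟨K', hK'⟩ : ∃ K' : ℝ, K' = K + n * η := ⟨_, rfl⟩
  have hK'0 : 0 ≤ K' := by rw [hK']; positivity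
  have hKK' : K ≤ K' := by
    rw [hK']
    have : 0 ≤ (n : ℝ) * η := by positivity
    linarith
  have hnorm : eLpNorm h p μ ≤ ENNReal.ofReal K' := by
    have e1 : h = (g : α → ℝ) + ∑ i, fun a => ‖((s i : Lp ℝ p μ) - f i : Lp ℝ p μ) a‖ := by
      rw [hh]
      ext a
      simp only [Pi.add_apply, Finset.sum_apply]
    have hm : ∀ i, AEStronglyMeasurable
        (fun a => ‖((s i : Lp ℝ p μ) - f i : Lp ℝ p μ) a‖) μ := fun i =>
      (Lp.aestronglyMeasurable _).norm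
    have hsum : AEStronglyMeasurable
        (∑ i, fun a => ‖((s i : Lp ℝ p μ) - f i : Lp ℝ p μ) a‖) μ :=
      Finset.aestronglyMeasurable_sum _ fun i _ => hm i
    have en : ∀ F : Lp ℝ p μ, eLpNorm F p μ = ENNReal.ofReal ‖F‖ := by
      intro F
      rw [Lp.norm_def, ENNReal.ofReal_toReal (Lp.eLpNorm_ne_top F)]
    have e2 : ∀ i, eLpNorm (fun a => ‖((s i : Lp ℝ p μ) - f i : Lp ℝ p μ) a‖) p μ ≤
        ENNReal.ofReal η := by
      intro i
      rw [eLpNorm_norm, en]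
      apply ENNReal.ofReal_le_ofReal
      rw [← dist_eq_norm, dist_comm]
      exact (hs i).le
    calc eLpNorm h p μ
        ≤ eLpNorm (g : α → ℝ) p μ +
          eLpNorm (∑ i, fun a => ‖((s i : Lp ℝ p μ) - f i : Lp ℝ p μ) a‖) p μ := by
          rw [e1]
          exact eLpNorm_add_le (Lp.aestronglyMeasurable g) hsum hp1
      _ ≤ eLpNorm (g : α → ℝ) p μ +
          ∑ i, eLpNorm (fun a => ‖((s i : Lp ℝ p μ) - f i : Lp ℝ p μ) a‖) p μ := by
          gcongr
          exact eLpNorm_sum_le (fun i _ => hm i) hp1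
      _ ≤ ENNReal.ofReal K + ∑ _i : Fin n, ENNReal.ofReal η := by
          gcongr with i
          · rw [en]
            exact ENNReal.ofReal_le_ofReal hg
          · exact e2 i
      _ = ENNReal.ofReal K' := by
          rw [Finset.sum_const, Finset.card_univ, Fintype.card_fin, nsmul_eq_mul, hK',
            ENNReal.ofReal_add hK0 (by positivity), ENNReal.ofReal_mul (by positivity)]
          simp
  obtain ⟨m, x, M, hxM, hMK, hxd⟩ := hB n s h hdom K' hK'0 hnorm
  rw [← hq] at hMK hxd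
  have hε' : (0 : ℝ) < 8 * ε / 9 := by positivity
  have hε'K : 8 * ε / 9 < (2 * K') ^ q := by
    have : (2 * K) ^ q ≤ (2 * K') ^ q := Real.rpow_le_rpow (by positivity) (by linarith) hq0.le
    linarith
  obtain ⟨d, y, hd, hy⟩ :=
    hA q hq1 m n (by omega) x M hxM K' hK'0 hMK (8 * ε / 9) hε' hε'K
  refine ⟨d, fun i => WithLp.toLp p (y i), ?_, fun i j => ?_⟩
  · -- the dimension
    have hK'u : K' ≤ K * (1 + 1 / (324 * q)) := by
      rw [hK']
      have h1 : (n : ℝ) * η ≤ n * (K / (324 * q * n)) := mul_le_mul_of_nonneg_left hη1 hnpos.le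
      have h2 : (n : ℝ) * (K / (324 * q * n)) = K * (1 / (324 * q)) := by
        field_simp
      linarith
    have hu0 : (0 : ℝ) < 1 / (324 * q) := by positivity
    have hPn : 0 ≤ (2 * K) ^ (2 * q) := Real.rpow_nonneg (by positivity) _
    have hP' : (2 * K') ^ (2 * q) ≤ 82 / 81 * (2 * K) ^ (2 * q) := by
      have h1 : (2 * K') ^ (2 * q) ≤ (2 * K * (1 + 1 / (324 * q))) ^ (2 * q) :=
        Real.rpow_le_rpow (by positivity) (by nlinarith) (by positivity)
      have h2 : (2 * K * (1 + 1 / (324 * q))) ^ (2 * q) =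
          (2 * K) ^ (2 * q) * (1 + 1 / (324 * q)) ^ (2 * q) :=
        Real.mul_rpow (by positivity) (by positivity)
      have h3 : (1 + 1 / (324 * q)) ^ (2 * q) ≤ Real.exp (1 / 162) := by
        have h4 : (1 + 1 / (324 * q)) ^ (2 * q) ≤ Real.exp (1 / (324 * q)) ^ (2 * q) :=
          Real.rpow_le_rpow (by positivity)
            (by linarith [Real.add_one_le_exp (1 / (324 * q))]) (by positivity)
        have h5 : Real.exp (1 / (324 * q)) ^ (2 * q) = Real.exp (1 / 162) := by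
          rw [← Real.exp_mul]
          congr 1
          field_simp
          norm_num
        linarith
      calc (2 * K') ^ (2 * q) ≤ (2 * K) ^ (2 * q) * (1 + 1 / (324 * q)) ^ (2 * q) := by
            rw [← h2]
            exact h1
        _ ≤ (2 * K) ^ (2 * q) * (82 / 81) :=
            mul_le_mul_of_nonneg_left (le_trans h3 exp_small) hPn
        _ = 82 / 81 * (2 * K) ^ (2 * q) := mul_comm _ _
    have hPsq : (2 * K) ^ (2 * q) = ((2 * K) ^ q) ^ 2 := by
      rw [mul_comm 2 q, Real.rpow_mul (by positivity), Real.rpow_two]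
    have hPε : ε ^ 2 ≤ (2 * K) ^ (2 * q) := by
      rw [hPsq]
      exact pow_le_pow_left₀ hε.le hεK.le 2
    have hL : (0.69 : ℝ) ≤ Real.log n := by
      have h1 : Real.log 2 ≤ Real.log n :=
        Real.log_le_log (by norm_num) (by exact_mod_cast (by omega : 2 ≤ n))
      have := Real.log_two_gt_d9
      linarith
    obtain ⟨P, hP⟩ : ∃ P : ℝ, P = (2 * K) ^ (2 * q) := ⟨_, rfl⟩
    obtain ⟨P', hPP⟩ : ∃ P' : ℝ, P' = (2 * K') ^ (2 * q) := ⟨_, rfl⟩
    obtain ⟨L, hLL⟩ : ∃ L : ℝ, L = Real.log n := ⟨_, rfl⟩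
    rw [← hP] at hP' hPε ⊢
    rw [← hPP] at hP' hd
    rw [← hLL] at hL hd ⊢
    have hε2 : 0 < ε ^ 2 := by positivity
    have h1 : 128 * P' * L / (8 * ε / 9) ^ 2 = 162 * P' * L / ε ^ 2 := by
      field_simp
      ring
    rw [h1] at hd
    have h2 : 162 * P' * L / ε ^ 2 + 1 ≤ 170 * P * L / ε ^ 2 := by
      rw [← sub_nonneg]
      have h3 : 170 * P * L / ε ^ 2 - (162 * P' * L / ε ^ 2 + 1) =
          (170 * P * L - 162 * P' * L - ε ^ 2) / ε ^ 2 := by
        field_simp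
        ring
      rw [h3]
      apply div_nonneg _ hε2.le
      have h4 : P' * L ≤ 82 / 81 * P * L :=
        mul_le_mul_of_nonneg_right hP' (by linarith)
      have h5 : ε ^ 2 * 0.69 ≤ P * L := mul_le_mul hPε hL (by norm_num) (by linarith)
      linarith
    linarith
  · -- the error
    have hY : dist (WithLp.toLp p (y i)) (WithLp.toLp p (y j)) ^ q =
        ∑ l, |y i l - y j l| ^ q := by
      rw [PiLp.dist_eq_sum (by rw [← hq]; exact hq0), ← hq,
        ← Real.rpow_mul (Finset.sum_nonneg fun l _ => Real.rpow_nonneg dist_nonneg _), one_div,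
        inv_mul_cancel₀ hq0.ne', Real.rpow_one]
      refine Finset.sum_congr rfl fun l _ => ?_
      rw [Real.dist_eq]
    rw [hY]
    have ha0 : 0 ≤ dist (s i : Lp ℝ p μ) (s j : Lp ℝ p μ) := dist_nonneg
    have hb0 : 0 ≤ dist (f i) (f j) := dist_nonneg
    have hab : |dist (s i : Lp ℝ p μ) (s j : Lp ℝ p μ) - dist (f i) (f j)| ≤ 2 * η := by
      have h1 := dist_dist_dist_le (s i : Lp ℝ p μ) (s j : Lp ℝ p μ) (f i) (f j)
      rw [Real.dist_eq] at h1
      have h2 := hs i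
      have h3 := hs j
      rw [dist_comm] at h2 h3
      linarith
    have hqn : 1 ≤ q * n := by nlinarith
    have hηK : η ≤ K / 2 := by
      refine le_trans hη1 ?_
      rw [div_le_div_iff₀ (by positivity) (by norm_num)]
      nlinarith [mul_le_mul_of_nonneg_left hqn hKpos.le]
    have hb3 : dist (f i) (f j) ≤ 3 * K := by linarith [hdist i j]
    have ha3 : dist (s i : Lp ℝ p μ) (s j : Lp ℝ p μ) ≤ 3 * K := by
      have := (abs_le.mp hab).2
      linarith [hdist i j]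
    have hmv := abs_rpow_sub_rpow_le q hq1 _ _ (3 * K) ha0 hb0 ha3 hb3
    have hη2' : q * (3 * K) ^ (q - 1) * (2 * η) ≤ ε / 9 := by
      have h1 : q * (3 * K) ^ (q - 1) * (2 * η) ≤
          q * (3 * K) ^ (q - 1) * (2 * (ε / (18 * q * (3 * K) ^ (q - 1)))) :=
        mul_le_mul_of_nonneg_left (by linarith) (by positivity)
      have h2 : q * (3 * K) ^ (q - 1) * (2 * (ε / (18 * q * (3 * K) ^ (q - 1)))) = ε / 9 := by
        field_simp
        ring
      linarith
    have hmv2 : |dist (s i : Lp ℝ p μ) (s j : Lp ℝ p μ) ^ q - dist (f i) (f j) ^ q| ≤ ε / 9 := by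
      refine le_trans hmv (le_trans ?_ hη2')
      exact mul_le_mul_of_nonneg_left hab (by positivity)
    have hyij := hy i j
    rw [hxd i j] at hyij
    have := abs_sub_le (∑ l, |y i l - y j l| ^ q)
      (dist (s i : Lp ℝ p μ) (s j : Lp ℝ p μ) ^ q) (dist (f i) (f j) ^ q)
    linarith

end Vale.Agent.Lib.P249.H5inc
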