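import Vale.Agent.Lib.P249.helper5.SensNN
import Vale.Agent.Lib.P249.helper21.LinEps

/-!
# P249: `n log n` coordinates for every `1 ≤ p < ∞`

Any `n ≥ 2` points of `ℓ_p^m` are mapped with distortion `1 + ε` into `ℓ_p^d`,
`d ≤ 290 · 76^p · ε⁻² · n · log n`, by a weighted selection of coordinates.
-/

namespace Vale.Agent.Lib.P249.H5

open Finset
open scoped ENNReal

/-- For every `1 ≤ p < ∞`, every `0 < ε ≤ 1` and any `n ≥ 2` points of `ℓ_p^m`, some weighted
selection of `d ≤ 290 · 76^p · ε⁻² · n · log n` coordinates (with repetition) has distortion at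
most `1 + ε` on the points. -/
theorem near_linear_log (p : ℝ≥0∞) [Fact (1 ≤ p)] (hp : p ≠ ⊤) (ε : ℝ) (hε : 0 < ε)
    (hε1 : ε ≤ 1) (n m : ℕ) (hn : 2 ≤ n) (x : Fin n → PiLp p (fun _ : Fin m => ℝ)) :
    ∃ (d : ℕ) (κ : Fin d → Fin m) (c : Fin d → ℝ),
      (d : ℝ) ≤ 290 * 76 ^ p.toReal / ε ^ 2 * n * Real.log n ∧
      ∀ i j,
        dist (x i) (x j) ≤
            dist (WithLp.toLp p (fun l => c l * x i (κ l)) : PiLp p (fun _ : Fin d => ℝ))
              (WithLp.toLp p (fun l => c l * x j (κ l))) ∧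
          dist (WithLp.toLp p (fun l => c l * x i (κ l)) : PiLp p (fun _ : Fin d => ℝ))
              (WithLp.toLp p (fun l => c l * x j (κ l))) ≤
            (1 + ε) * dist (x i) (x j) := by
  have hp1 : (1 : ℝ≥0∞) ≤ p := Fact.out
  have hq1 : 1 ≤ p.toReal := by
    have h := ENNReal.toReal_mono hp hp1
    simpa using h
  have h76 : (1 : ℝ) ≤ (76 : ℝ) ^ p.toReal := Real.one_le_rpow (by norm_num) (by linarith)
  obtain ⟨d, κ, c, hd, hy⟩ := Vale.Agent.Lib.P249.H21.lin_eps_of_sens p hp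
    ((76 : ℝ) ^ p.toReal) 0 (by positivity) le_rfl
    (fun n m _ x => by
      obtain ⟨s, hs0, hs, hS⟩ := sens_nn p hp n m x
      refine ⟨s, hs0, hs, ?_⟩
      rw [Real.rpow_zero, mul_one]
      exact hS)
    ε hε hε1 n m hn x
  refine ⟨d, κ, c, le_trans hd ?_, hy⟩
  rw [zero_add, Real.rpow_one, Real.rpow_one]
  have hn' : (2 : ℝ) ≤ n := by exact_mod_cast hn
  have hlogn : 0 < Real.log n := Real.log_pos (by linarith)
  have hε2 : 0 < ε ^ 2 := by positivity
  have hl2 : (1 / 2 : ℝ) ≤ Real.log 2 := by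
    have := Real.log_two_gt_d9
    linarith
  have h1 : 1 / Real.log 2 ≤ 2 := by
    rw [div_le_iff₀ (by linarith)]
    linarith
  have hC : 288 * (76 : ℝ) ^ p.toReal + 1 / Real.log 2 ≤ 290 * (76 : ℝ) ^ p.toReal := by
    linarith
  have hn0 : (0 : ℝ) ≤ n := by linarith
  have hfac : 0 ≤ 1 / ε ^ 2 * (n * Real.log n) := by positivity
  calc (288 * (76 : ℝ) ^ p.toReal + 1 / Real.log 2) / ε ^ 2 * n * Real.log n
      = (288 * (76 : ℝ) ^ p.toReal + 1 / Real.log 2) * (1 / ε ^ 2 * (n * Real.log n)) := by ring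
    _ ≤ 290 * (76 : ℝ) ^ p.toReal * (1 / ε ^ 2 * (n * Real.log n)) :=
        mul_le_mul_of_nonneg_right hC hfac
    _ = 290 * 76 ^ p.toReal / ε ^ 2 * n * Real.log n := by ring

end Vale.Agent.Lib.P249.H5
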