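import Mathlib

/-!
# P249: the nearest-neighbour walk lemma

`X` is a finite set with a pseudometric `d` (given by hypotheses), `S k x` is a set of the
`L ^ (k + 1)` points nearest to `x` (all of `X` if there are fewer points), `g : X → ℝ` vanishes
on pairs at distance zero.  If `T` dominates the normalised level energies
`∑ x, ∑ y ∈ S k x, |g x - g y| ^ q / d x y ^ q ≤ (2 L) ^ (k + 1) * T`, then
`|g i - g j| ^ q ≤ (16 + (2 L) ^ (1 / q)) ^ q * (d i j ^ q * T)` for ALL pairs `i, j`.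
-/

namespace Vale.Agent.Lib.P249.H5

open Finset

/-- Nearest-neighbour sets: for every `K` and `x` there is a set of `min K |X|` points such that
every point inside is at most as far from `x` as every point outside. -/
theorem exists_nn {X : Type*} [Fintype X] [DecidableEq X] (d : X → X → ℝ) (K : ℕ) (x : X) :
    ∃ S : Finset X, S.card = min K (Fintype.card X) ∧
      ∀ y z, y ∉ S → z ∈ S → d x z ≤ d x y := by
  have hne : (Finset.powersetCard (min K (Fintype.card X)) (Finset.univ : Finset X)).Nonempty := by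
    rw [Finset.powersetCard_nonempty, Finset.card_univ]
    exact min_le_right _ _
  obtain ⟨S, hS, hmin⟩ := Finset.exists_min_image _ (fun S : Finset X => ∑ z ∈ S, d x z) hne
  rw [Finset.mem_powersetCard] at hS
  refine ⟨S, hS.2, ?_⟩
  intro y z hy hz
  by_contra hlt
  have hlt' : d x y < d x z := not_le.mp hlt
  have hyS : y ∉ S.erase z := fun h => hy (Finset.mem_of_mem_erase h)
  have hS' : insert y (S.erase z) ∈
      Finset.powersetCard (min K (Fintype.card X)) (Finset.univ : Finset X) := by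
    rw [Finset.mem_powersetCard]
    refine ⟨Finset.subset_univ _, ?_⟩
    rw [Finset.card_insert_of_notMem hyS, Finset.card_erase_of_mem hz, ← hS.2]
    have : 0 < S.card := Finset.card_pos.mpr ⟨z, hz⟩
    omega
  have h1 : ∑ w ∈ S, d x w ≤ ∑ w ∈ insert y (S.erase z), d x w := hmin _ hS'
  rw [Finset.sum_insert hyS] at h1
  have h2 : ∑ w ∈ S.erase z, d x w + d x z = ∑ w ∈ S, d x w := Finset.sum_erase_add _ _ hz
  linarith

variable {X : Type*} [Fintype X] [DecidableEq X]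

/-- The nearest-neighbour walk started at `a`: at step `k` move to a uniform point of `S k x`. -/
noncomputable def walk (S : ℕ → X → Finset X) (a : X) : ℕ → X → ℝ
  | 0 => fun y => if y = a then 1 else 0
  | k + 1 => fun y =>
      ∑ x, walk S a k x * (if y ∈ S k x then ((S k x).card : ℝ)⁻¹ else 0)

theorem walk_nonneg (S : ℕ → X → Finset X) (a : X) : ∀ (k : ℕ) (y : X), 0 ≤ walk S a k y
  | 0, y => by
      simp only [walk]
      split_ifs <;> norm_num
  | k + 1, y => by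
      simp only [walk]
      apply Finset.sum_nonneg
      intro x _
      apply mul_nonneg (walk_nonneg S a k x)
      split_ifs
      · positivity
      · exact le_rfl

theorem step_weight_sum (S : ℕ → X → Finset X) (k : ℕ) (x : X) (hne : (S k x).Nonempty) :
    ∑ y, (if y ∈ S k x then ((S k x).card : ℝ)⁻¹ else 0) = 1 := by
  rw [Finset.sum_ite_mem, Finset.univ_inter, Finset.sum_const, nsmul_eq_mul, mul_inv_cancel₀]
  exact Nat.cast_ne_zero.mpr (Finset.card_ne_zero.mpr hne)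

theorem walk_sum (S : ℕ → X → Finset X) (a : X) (k : ℕ)
    (hc : ∀ k', k' < k → ∀ x, (S k' x).Nonempty) : ∑ y, walk S a k y = 1 := by
  induction k with
  | zero => simp [walk]
  | succ k ih =>
    simp only [walk]
    rw [Finset.sum_comm]
    have h1 : ∀ x, ∑ y, walk S a k x * (if y ∈ S k x then ((S k x).card : ℝ)⁻¹ else 0) =
        walk S a k x := by
      intro x
      rw [← Finset.mul_sum, step_weight_sum S k x (hc k (Nat.lt_succ_self k) x), mul_one]
    simp_rw [h1]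
    exact ih (fun k' hk' => hc k' (Nat.lt_succ_of_lt hk'))

theorem walk_supp (S : ℕ → X → Finset X) (d : X → X → ℝ) (hd0 : ∀ x, d x x = 0)
    (hdt : ∀ x y z, d x z ≤ d x y + d y z) (a : X) (σ δ : ℕ → ℝ) (hσ0 : 0 ≤ σ 0)
    (hσ : ∀ k, σ k + δ k ≤ σ (k + 1)) (k : ℕ)
    (hb : ∀ k', k' < k → ∀ z, d a z ≤ σ k' → ∀ w ∈ S k' z, d z w ≤ δ k') :
    ∀ y, walk S a k y ≠ 0 → d a y ≤ σ k := by
  induction k with
  | zero =>
    intro y hy
    simp only [walk] at hy
    have hya : y = a := by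
      by_contra h
      simp [h] at hy
    rw [hya, hd0]
    exact hσ0
  | succ k ih =>
    intro y hy
    simp only [walk] at hy
    obtain ⟨x, -, hx⟩ := Finset.exists_ne_zero_of_sum_ne_zero hy
    have hx1 : walk S a k x ≠ 0 := left_ne_zero_of_mul hx
    have hx2 : y ∈ S k x := by
      by_contra h
      simp [h] at hx
    have h1 := ih (fun k' hk' => hb k' (Nat.lt_succ_of_lt hk')) x hx1
    have h2 := hb k (Nat.lt_succ_self k) x h1 y hx2
    linarith [hdt a x y, hσ k]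

theorem walk_le (S : ℕ → X → Finset X) (a : X) (L : ℕ) (hL : 0 < L) (k : ℕ)
    (hc : ∀ k', k' < k → ∀ x, (S k' x).card = L ^ (k' + 1)) :
    ∀ y, walk S a k y ≤ ((L : ℝ) ^ k)⁻¹ := by
  cases k with
  | zero =>
    intro y
    simp only [walk]
    split_ifs <;> norm_num
  | succ k =>
    intro y
    simp only [walk]
    have hsum := walk_sum S a k (fun k' hk' x => Finset.card_pos.mp (by
      rw [hc k' (Nat.lt_succ_of_lt hk') x]
      positivity))
    calc ∑ x, walk S a k x * (if y ∈ S k x then ((S k x).card : ℝ)⁻¹ else 0)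
        ≤ ∑ x, walk S a k x * ((L : ℝ) ^ (k + 1))⁻¹ := by
          apply Finset.sum_le_sum
          intro x _
          apply mul_le_mul_of_nonneg_left _ (walk_nonneg S a k x)
          split_ifs
          · rw [hc k (Nat.lt_succ_self k) x]
            push_cast
            exact le_rfl
          · positivity
      _ = ((L : ℝ) ^ (k + 1))⁻¹ := by rw [← Finset.sum_mul, hsum, one_mul]

/-- Jensen for `|·| ^ q` and a probability vector. -/
theorem jensen_abs {ι : Type*} (s : Finset ι) (w a : ι → ℝ) (hw : ∀ i ∈ s, 0 ≤ w i)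
    (hw1 : ∑ i ∈ s, w i = 1) {q : ℝ} (hq : 1 ≤ q) :
    |∑ i ∈ s, w i * a i| ^ q ≤ ∑ i ∈ s, w i * |a i| ^ q := by
  have h1 : |∑ i ∈ s, w i * a i| ≤ ∑ i ∈ s, w i * |a i| := by
    refine le_trans (Finset.abs_sum_le_sum_abs _ _) (le_of_eq ?_)
    apply Finset.sum_congr rfl
    intro i hi
    rw [abs_mul, abs_of_nonneg (hw i hi)]
  refine le_trans (Real.rpow_le_rpow (abs_nonneg _) h1 (by linarith)) ?_
  exact Real.rpow_arith_mean_le_arith_mean_rpow s w (fun i => |a i|) hw hw1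
    (fun i _ => abs_nonneg _) hq

/-- The common core of the step estimate and of the meeting estimate. -/
theorem pair_core (d : X → X → ℝ) (hdn : ∀ x y, 0 ≤ d x y) (q : ℝ) (hq : 1 ≤ q) (g : X → ℝ)
    (hg : ∀ x y, d x y = 0 → g x = g y) (w : X → ℝ) (v : X → X → ℝ) (hw : ∀ x, 0 ≤ w x)
    (hw1 : ∑ x, w x = 1) (hv : ∀ x y, 0 ≤ v x y) (hv1 : ∀ x, ∑ y, v x y = 1)
    (Sk : X → Finset X) (K D : ℝ) (hK : 0 ≤ K) (hD : 0 ≤ D)
    (h : ∀ x y, w x * v x y ≠ 0 → y ∈ Sk x ∧ d x y ≤ D ∧ w x * v x y ≤ K) :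
    |∑ x, w x * g x - ∑ y, (∑ x, w x * v x y) * g y| ^ q ≤
      K * D ^ q * ∑ x, ∑ y ∈ Sk x, |g x - g y| ^ q / d x y ^ q := by
  have hq0 : 0 < q := by linarith
  have hid : ∑ x, w x * g x - ∑ y, (∑ x, w x * v x y) * g y =
      ∑ x, w x * ∑ y, v x y * (g x - g y) := by
    have h1 : ∀ x, ∑ y, v x y * (g x - g y) = g x - ∑ y, v x y * g y := by
      intro x
      simp_rw [mul_sub]
      rw [Finset.sum_sub_distrib, ← Finset.sum_mul, hv1 x, one_mul]
    simp_rw [h1, mul_sub]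
    rw [Finset.sum_sub_distrib]
    congr 1
    simp_rw [Finset.sum_mul, Finset.mul_sum]
    rw [Finset.sum_comm]
    apply Finset.sum_congr rfl
    intro x _
    apply Finset.sum_congr rfl
    intro y _
    ring
  rw [hid]
  have hJ1 := jensen_abs Finset.univ w (fun x => ∑ y, v x y * (g x - g y)) (fun x _ => hw x) hw1 hq
  have hJ2 : ∀ x, |∑ y, v x y * (g x - g y)| ^ q ≤ ∑ y, v x y * |g x - g y| ^ q := fun x =>
    jensen_abs Finset.univ (v x) (fun y => g x - g y) (fun y _ => hv x y) (hv1 x) hq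
  have hterm : ∀ x y, w x * (v x y * |g x - g y| ^ q) ≤
      if y ∈ Sk x then K * D ^ q * (|g x - g y| ^ q / d x y ^ q) else 0 := by
    intro x y
    have hDq : 0 ≤ D ^ q := Real.rpow_nonneg hD q
    have hr : 0 ≤ |g x - g y| ^ q / d x y ^ q :=
      div_nonneg (Real.rpow_nonneg (abs_nonneg _) q) (Real.rpow_nonneg (hdn x y) q)
    by_cases hz : w x * v x y = 0
    · rw [← mul_assoc, hz, zero_mul]
      split_ifs
      · positivity
      · exact le_rfl
    · obtain ⟨hmem, hdD, hle⟩ := h x y hz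
      rw [if_pos hmem]
      rcases (hdn x y).eq_or_lt with hd0 | hdpos
      · rw [hg x y hd0.symm, sub_self, abs_zero, Real.zero_rpow hq0.ne']
        simp
      · have hdq : 0 < d x y ^ q := Real.rpow_pos_of_pos hdpos q
        have h2 : |g x - g y| ^ q = |g x - g y| ^ q / d x y ^ q * d x y ^ q := by
          field_simp
        have h3 : d x y ^ q ≤ D ^ q := Real.rpow_le_rpow hdpos.le hdD hq0.le
        calc w x * (v x y * |g x - g y| ^ q)
            = (w x * v x y) * (|g x - g y| ^ q / d x y ^ q * d x y ^ q) := by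
              rw [← h2]
              ring
          _ ≤ K * (|g x - g y| ^ q / d x y ^ q * D ^ q) := by
              apply mul_le_mul hle (mul_le_mul_of_nonneg_left h3 hr) (by positivity) hK
          _ = K * D ^ q * (|g x - g y| ^ q / d x y ^ q) := by ring
  calc |∑ x, w x * ∑ y, v x y * (g x - g y)| ^ q
      ≤ ∑ x, w x * |∑ y, v x y * (g x - g y)| ^ q := hJ1
    _ ≤ ∑ x, w x * ∑ y, v x y * |g x - g y| ^ q :=
        Finset.sum_le_sum fun x _ => mul_le_mul_of_nonneg_left (hJ2 x) (hw x)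
    _ = ∑ x, ∑ y, w x * (v x y * |g x - g y| ^ q) := by simp_rw [Finset.mul_sum]
    _ ≤ ∑ x, ∑ y, (if y ∈ Sk x then K * D ^ q * (|g x - g y| ^ q / d x y ^ q) else 0) :=
        Finset.sum_le_sum fun x _ => Finset.sum_le_sum fun y _ => hterm x y
    _ = K * D ^ q * ∑ x, ∑ y ∈ Sk x, |g x - g y| ^ q / d x y ^ q := by
        rw [Finset.mul_sum]
        apply Finset.sum_congr rfl
        intro x _
        rw [Finset.sum_ite_mem, Finset.univ_inter, Finset.mul_sum]

/-- Arithmetic of the step estimate. -/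
theorem arith_step (q : ℝ) (hq : 1 ≤ q) (Lr : ℝ) (hL : 2 * (10 : ℝ) ^ q ≤ Lr) (ρ τ : ℝ)
    (hρ : 0 ≤ ρ) (hτ : 0 ≤ τ) (k : ℕ) :
    (Lr ^ k)⁻¹ * (Lr ^ (k + 1))⁻¹ * (2 * ρ * 5 ^ k) ^ q * ((2 * Lr) ^ (k + 1) * τ ^ q) ≤
      (4 * ρ * (1 / 2) ^ k * τ) ^ q := by
  obtain ⟨A, hA⟩ : ∃ A : ℝ, A = (5 : ℝ) ^ q := ⟨_, rfl⟩
  obtain ⟨B, hB⟩ : ∃ B : ℝ, B = (2 : ℝ) ^ q := ⟨_, rfl⟩
  have hApos : 0 < A := by
    rw [hA]
    exact Real.rpow_pos_of_pos (by norm_num) q
  have hB2 : 2 ≤ B := by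
    have h := Real.rpow_le_rpow_of_exponent_le (x := 2) (by norm_num) hq
    rw [Real.rpow_one] at h
    rw [hB]
    exact h
  have h10 : (10 : ℝ) ^ q = A * B := by
    rw [hA, hB, ← Real.mul_rpow (by norm_num) (by norm_num)]
    norm_num
  have hAB : 2 * A * B ≤ Lr := by
    rw [h10] at hL
    linarith
  have hBpos : 0 < B := by linarith
  have hLpos : 0 < Lr := lt_of_lt_of_le (by positivity) hAB
  have e5 : ((5 : ℝ) ^ k) ^ q = A ^ k := by
    rw [hA]
    exact (Real.rpow_pow_comm (by norm_num) q k).symm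
  have eh : (((1 : ℝ) / 2) ^ k) ^ q = B⁻¹ ^ k := by
    rw [← Real.rpow_pow_comm (by norm_num) q k, one_div, Real.inv_rpow (by norm_num), hB]
  have e4 : (4 : ℝ) ^ q = B * B := by
    rw [hB, ← Real.mul_rpow (by norm_num) (by norm_num)]
    norm_num
  have e1 : (2 * ρ * 5 ^ k) ^ q = B * ρ ^ q * A ^ k := by
    rw [Real.mul_rpow (by positivity) (by positivity), Real.mul_rpow (by norm_num) hρ, e5, hB]
  have e2 : (4 * ρ * (1 / 2) ^ k * τ) ^ q = B * B * ρ ^ q * B⁻¹ ^ k * τ ^ q := by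
    rw [Real.mul_rpow (by positivity) hτ, Real.mul_rpow (by positivity) (by positivity),
      Real.mul_rpow (by norm_num) hρ, eh, e4]
  rw [e1, e2]
  have hρq : 0 ≤ ρ ^ q := Real.rpow_nonneg hρ q
  have hτq : 0 ≤ τ ^ q := Real.rpow_nonneg hτ q
  generalize ρ ^ q = ρq at hρq ⊢
  generalize τ ^ q = τq at hτq ⊢
  have h1 : (2 * A * B) ^ k ≤ Lr ^ k := pow_le_pow_left₀ (by positivity) hAB k
  have hLk : 0 < Lr ^ k := pow_pos hLpos k
  have hBk : 0 < B ^ k := pow_pos hBpos k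
  have key1 : (Lr ^ k)⁻¹ * (Lr ^ (k + 1))⁻¹ * (B * ρq * A ^ k) * ((2 * Lr) ^ (k + 1) * τq) =
      B * ρq * τq * (2 * (2 * A * B) ^ k) / (Lr ^ k * B ^ k) := by
    rw [mul_pow, mul_pow, mul_pow]
    field_simp
    ring
  have key2 : B * B * ρq * B⁻¹ ^ k * τq = B * ρq * τq * (B * Lr ^ k) / (Lr ^ k * B ^ k) := by
    rw [inv_pow]
    field_simp
  rw [key1, key2]
  apply div_le_div_of_nonneg_right _ (mul_pos hLk hBk).le
  apply mul_le_mul_of_nonneg_left _ (mul_nonneg (mul_nonneg hBpos.le hρq) hτq)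
  nlinarith

/-- Arithmetic of the meeting estimate. -/
theorem arith_meet (q : ℝ) (hq : 1 ≤ q) (Lr : ℝ) (hL : 2 * (10 : ℝ) ^ q ≤ Lr) (ρ τ : ℝ)
    (hρ : 0 ≤ ρ) (hτ : 0 ≤ τ) (k : ℕ) :
    (Lr ^ k)⁻¹ * (Lr ^ k)⁻¹ * (ρ * 5 ^ k) ^ q * ((2 * Lr) ^ (k + 1) * τ ^ q) ≤
      ((2 * Lr) ^ (1 / q) * ρ * τ) ^ q := by
  have hq0 : 0 < q := by linarith
  obtain ⟨A, hA⟩ : ∃ A : ℝ, A = (5 : ℝ) ^ q := ⟨_, rfl⟩
  obtain ⟨B, hB⟩ : ∃ B : ℝ, B = (2 : ℝ) ^ q := ⟨_, rfl⟩
  have hApos : 0 < A := by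
    rw [hA]
    exact Real.rpow_pos_of_pos (by norm_num) q
  have hB2 : 2 ≤ B := by
    have h := Real.rpow_le_rpow_of_exponent_le (x := 2) (by norm_num) hq
    rw [Real.rpow_one] at h
    rw [hB]
    exact h
  have h10 : (10 : ℝ) ^ q = A * B := by
    rw [hA, hB, ← Real.mul_rpow (by norm_num) (by norm_num)]
    norm_num
  have hAL : 2 * A ≤ Lr := by
    rw [h10] at hL
    nlinarith
  have hLpos : 0 < Lr := lt_of_lt_of_le (by positivity) hAL
  have e5 : ((5 : ℝ) ^ k) ^ q = A ^ k := by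
    rw [hA]
    exact (Real.rpow_pow_comm (by norm_num) q k).symm
  have e1 : (ρ * 5 ^ k) ^ q = ρ ^ q * A ^ k := by
    rw [Real.mul_rpow hρ (by positivity), e5]
  have e2 : ((2 * Lr) ^ (1 / q) * ρ * τ) ^ q = 2 * Lr * ρ ^ q * τ ^ q := by
    rw [Real.mul_rpow (by positivity) hτ, Real.mul_rpow (by positivity) hρ, one_div,
      Real.rpow_inv_rpow (by positivity) hq0.ne']
  rw [e1, e2]
  have hρq : 0 ≤ ρ ^ q := Real.rpow_nonneg hρ q
  have hτq : 0 ≤ τ ^ q := Real.rpow_nonneg hτ q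
  generalize ρ ^ q = ρq at hρq ⊢
  generalize τ ^ q = τq at hτq ⊢
  have h1 : (2 * A) ^ k ≤ Lr ^ k := pow_le_pow_left₀ (by positivity) hAL k
  have hLk : 0 < Lr ^ k := pow_pos hLpos k
  have key1 : (Lr ^ k)⁻¹ * (Lr ^ k)⁻¹ * (ρq * A ^ k) * ((2 * Lr) ^ (k + 1) * τq) =
      2 * Lr * ρq * τq * ((2 * A) ^ k / Lr ^ k) := by
    rw [mul_pow, mul_pow]
    field_simp
    ring
  rw [key1]
  have h2 : (2 * A) ^ k / Lr ^ k ≤ 1 := by
    rw [div_le_one hLk]
    exact h1
  have h3 : 0 ≤ 2 * Lr * ρq * τq :=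
    mul_nonneg (mul_nonneg (mul_nonneg (by norm_num) hLpos.le) hρq) hτq
  nlinarith

omit [DecidableEq X] in
/-- **The nearest-neighbour walk lemma.** -/
theorem nn_walk_bound (d : X → X → ℝ) (hd0 : ∀ x, d x x = 0) (hdn : ∀ x y, 0 ≤ d x y)
    (hds : ∀ x y, d x y = d y x) (hdt : ∀ x y z, d x z ≤ d x y + d y z)
    (q : ℝ) (hq : 1 ≤ q) (L : ℕ) (hL : 2 * (10 : ℝ) ^ q ≤ L)
    (S : ℕ → X → Finset X)
    (hS1 : ∀ k x, (S k x).card = min (L ^ (k + 1)) (Fintype.card X))
    (hS2 : ∀ k x y z, y ∉ S k x → z ∈ S k x → d x z ≤ d x y)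
    (g : X → ℝ) (hg : ∀ x y, d x y = 0 → g x = g y)
    (T : ℝ) (hT0 : 0 ≤ T)
    (hT : ∀ k, k < Fintype.card X →
      ∑ x, ∑ y ∈ S k x, |g x - g y| ^ q / d x y ^ q ≤ (2 * (L : ℝ)) ^ (k + 1) * T)
    (i j : X) :
    |g i - g j| ^ q ≤ (16 + (2 * (L : ℝ)) ^ (1 / q)) ^ q * (d i j ^ q * T) := by
  have hq0 : 0 < q := by linarith
  have h10 : (1 : ℝ) ≤ (10 : ℝ) ^ q := Real.one_le_rpow (by norm_num) hq0.le
  have hLr : (2 : ℝ) ≤ L := by linarith
  have hL2 : 2 ≤ L := by exact_mod_cast hLr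
  have hLpos : 0 < L := by omega
  have hLrpos : (0 : ℝ) < L := by linarith
  have hC0 : 0 ≤ 16 + (2 * (L : ℝ)) ^ (1 / q) :=
    add_nonneg (by norm_num) (Real.rpow_nonneg (by linarith) _)
  rcases (hdn i j).eq_or_lt with hρ0 | hρ
  · rw [hg i j hρ0.symm, sub_self, abs_zero, Real.zero_rpow hq0.ne']
    exact mul_nonneg (Real.rpow_nonneg hC0 q) (mul_nonneg (Real.rpow_nonneg (hdn i j) q) hT0)
  -- the main case
  obtain ⟨ρ, hρdef⟩ : ∃ ρ, ρ = d i j := ⟨_, rfl⟩
  rw [← hρdef] at hρ ⊢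
  obtain ⟨τ, hτdef⟩ : ∃ τ, τ = T ^ (1 / q) := ⟨_, rfl⟩
  have hτ0 : 0 ≤ τ := by
    rw [hτdef]
    exact Real.rpow_nonneg hT0 _
  have hτq : τ ^ q = T := by
    rw [hτdef, one_div, Real.rpow_inv_rpow hT0 hq0.ne']
  obtain ⟨σ, hσdef⟩ : ∃ σ : ℕ → ℝ, ∀ k, σ k = ρ * (5 ^ k - 1) / 2 := ⟨_, fun _ => rfl⟩
  obtain ⟨δ, hδdef⟩ : ∃ δ : ℕ → ℝ, ∀ k, δ k = 2 * ρ * 5 ^ k := ⟨_, fun _ => rfl⟩
  have hσ0 : σ 0 = 0 := by
    rw [hσdef]
    simp
  have hσn : ∀ k, 0 ≤ σ k := by
    intro k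
    have h1 : (1 : ℝ) ≤ 5 ^ k := one_le_pow₀ (by norm_num)
    rw [hσdef]
    exact div_nonneg (mul_nonneg hρ.le (by linarith)) (by norm_num)
  have hσs : ∀ k, σ k + δ k ≤ σ (k + 1) := by
    intro k
    rw [hσdef, hσdef, hδdef, pow_succ]
    apply le_of_eq
    ring
  have hδn : ∀ k, 0 ≤ δ k := fun k => by
    rw [hδdef]
    positivity
  have h2σ : ∀ k, 2 * σ k + ρ = ρ * 5 ^ k := fun k => by
    rw [hσdef]
    ring
  have h4σ : ∀ k, 2 * (2 * σ k + ρ) = δ k := fun k => by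
    rw [hσdef, hδdef]
    ring
  obtain ⟨Large, hLarge⟩ : ∃ Large : ℕ → Prop,
      ∀ k, Large k ↔ ∀ x y, d i x ≤ σ k → d j y ≤ σ k → y ∈ S k x := ⟨_, fun _ => Iff.rfl⟩
  -- Claim 1: below the first large level the nearest-neighbour sets are small balls
  have claim1 : ∀ k, ¬ Large k → L ^ (k + 1) < Fintype.card X ∧
      ∀ z, (d i z ≤ σ k ∨ d j z ≤ σ k) → ∀ w ∈ S k z, d z w ≤ δ k := by
    intro k hk
    rw [hLarge] at hk
    have hk' : ∃ x y, d i x ≤ σ k ∧ d j y ≤ σ k ∧ y ∉ S k x := by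
      by_contra hcon
      apply hk
      intro x y hx hy
      by_contra hmem
      exact hcon ⟨x, y, hx, hy, hmem⟩
    obtain ⟨x0, y0, hx0, hy0, hy0S⟩ := hk'
    have hlt : L ^ (k + 1) < Fintype.card X := by
      by_contra h
      have h' : Fintype.card X ≤ L ^ (k + 1) := not_lt.mp h
      have huniv : S k x0 = Finset.univ :=
        Finset.eq_univ_of_card _ (by rw [hS1, min_eq_right h'])
      exact hy0S (huniv ▸ Finset.mem_univ _)
    have hcard : ∀ z, (S k z).card = L ^ (k + 1) := fun z => by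
      rw [hS1, min_eq_left hlt.le]
    refine ⟨hlt, ?_⟩
    intro z hz w hw
    by_contra hgt
    have hgt' : δ k < d z w := not_le.mp hgt
    have hx0y0 : d x0 y0 ≤ 2 * σ k + ρ := by
      have h1 := hdt x0 i y0
      have h2 := hdt i j y0
      rw [hds x0 i] at h1
      rw [← hρdef] at h2
      linarith
    have hzx0 : d z x0 ≤ 2 * σ k + ρ := by
      rcases hz with hz | hz
      · have h1 := hdt z i x0
        rw [hds z i] at h1
        linarith
      · have h1 := hdt z j x0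
        have h2 := hdt j i x0
        rw [hds z j] at h1
        rw [hds j i, ← hρdef] at h2
        linarith
    have hballz : ∀ u ∈ S k x0, d z u ≤ δ k := by
      intro u hu
      have h1 := hS2 k x0 y0 u hy0S hu
      have h2 := hdt z x0 u
      have h3 := h4σ k
      linarith
    have hwS : w ∉ S k x0 := fun h => by
      have := hballz w h
      linarith
    have hex : ∃ u ∈ S k x0, u ∉ S k z := by
      by_contra hcon
      have hsub : S k x0 ⊆ S k z := by
        intro u hu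
        by_contra hu'
        exact hcon ⟨u, hu, hu'⟩
      have heq : S k x0 = S k z :=
        Finset.eq_of_subset_of_card_le hsub (by rw [hcard, hcard])
      exact hwS (heq ▸ hw)
    obtain ⟨u, hu, huz⟩ := hex
    have h1 := hS2 k z u w huz hw
    have h2 := hballz u hu
    linarith
  -- a large level exists below the cardinality
  have hcardpos : 0 < Fintype.card X := Fintype.card_pos_iff.mpr ⟨i⟩
  have hLargeTop : Large (Fintype.card X - 1) := by
    rw [hLarge]
    intro x y _ _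
    have hle : Fintype.card X ≤ L ^ (Fintype.card X - 1 + 1) := by
      rw [Nat.sub_add_cancel hcardpos]
      exact le_trans (Nat.lt_two_pow_self).le (Nat.pow_le_pow_left hL2 _)
    have huniv : S (Fintype.card X - 1) x = Finset.univ :=
      Finset.eq_univ_of_card _ (by rw [hS1, min_eq_right hle])
    rw [huniv]
    exact Finset.mem_univ _
  have hex : ∃ k, Large k := ⟨_, hLargeTop⟩
  classical
  obtain ⟨ks, hks, hmin⟩ : ∃ ks, Large ks ∧ ∀ k', k' < ks → ¬ Large k' :=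
    ⟨Nat.find hex, Nat.find_spec hex, fun k' hk' => Nat.find_min hex hk'⟩
  have hksn : ks < Fintype.card X := by
    have h1 : ks ≤ Fintype.card X - 1 := by
      by_contra h
      exact hmin _ (not_le.mp h) hLargeTop
    omega
  rw [hLarge] at hks
  -- properties of the two walks up to the level `ks`
  have hcardk : ∀ k', k' < ks → ∀ x, (S k' x).card = L ^ (k' + 1) := fun k' hk' x => by
    rw [hS1, min_eq_left (claim1 k' (hmin k' hk')).1.le]
  have hnek : ∀ k', k' < ks → ∀ x, (S k' x).Nonempty := fun k' hk' x =>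
    Finset.card_pos.mp (by
      rw [hcardk k' hk' x]
      positivity)
  have hballi : ∀ k', k' < ks → ∀ z, d i z ≤ σ k' → ∀ w ∈ S k' z, d z w ≤ δ k' :=
    fun k' hk' z hz w hw => (claim1 k' (hmin k' hk')).2 z (Or.inl hz) w hw
  have hballj : ∀ k', k' < ks → ∀ z, d j z ≤ σ k' → ∀ w ∈ S k' z, d z w ≤ δ k' :=
    fun k' hk' z hz w hw => (claim1 k' (hmin k' hk')).2 z (Or.inr hz) w hw
  have hsum : ∀ a k, k ≤ ks → ∑ y, walk S a k y = 1 := fun a k hk =>
    walk_sum S a k (fun k' hk' x => hnek k' (by omega) x)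
  have hsuppi : ∀ k, k ≤ ks → ∀ y, walk S i k y ≠ 0 → d i y ≤ σ k := fun k hk =>
    walk_supp S d hd0 hdt i σ δ (by rw [hσ0]) hσs k (fun k' hk' => hballi k' (by omega))
  have hsuppj : ∀ k, k ≤ ks → ∀ y, walk S j k y ≠ 0 → d j y ≤ σ k := fun k hk =>
    walk_supp S d hd0 hdt j σ δ (by rw [hσ0]) hσs k (fun k' hk' => hballj k' (by omega))
  have hle : ∀ a k, k ≤ ks → ∀ y, walk S a k y ≤ ((L : ℝ) ^ k)⁻¹ := fun a k hk =>
    walk_le S a L hLpos k (fun k' hk' => hcardk k' (by omega))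
  obtain ⟨E, hE⟩ : ∃ E : X → ℕ → ℝ, ∀ a k, E a k = ∑ x, walk S a k x * g x :=
    ⟨_, fun _ _ => rfl⟩
  -- the step estimate
  have hstep : ∀ a, (∀ k', k' < ks → ∀ z, d a z ≤ σ k' → ∀ w ∈ S k' z, d z w ≤ δ k') →
      (∀ k, k ≤ ks → ∀ y, walk S a k y ≠ 0 → d a y ≤ σ k) →
      ∀ k, k < ks → |E a k - E a (k + 1)| ≤ 4 * ρ * (1 / 2) ^ k * τ := by
    intro a hballa hsuppa k hk
    have hK0 : 0 ≤ ((L : ℝ) ^ k)⁻¹ * ((L : ℝ) ^ (k + 1))⁻¹ := by positivity
    have hcore := pair_core d hdn q hq g hg (walk S a k)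
      (fun x y => if y ∈ S k x then ((S k x).card : ℝ)⁻¹ else 0)
      (walk_nonneg S a k) (hsum a k hk.le)
      (fun x y => by
        split_ifs
        · positivity
        · exact le_rfl)
      (fun x => step_weight_sum S k x (hnek k hk x))
      (S k) (((L : ℝ) ^ k)⁻¹ * ((L : ℝ) ^ (k + 1))⁻¹) (δ k) hK0 (hδn k)
      (by
        intro x y hxy
        have hw : walk S a k x ≠ 0 := left_ne_zero_of_mul hxy
        have hv := right_ne_zero_of_mul hxy
        have hmem : y ∈ S k x := by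
          by_contra h
          simp [h] at hv
        refine ⟨hmem, hballa k hk x (hsuppa k hk.le x hw) y hmem, ?_⟩
        rw [if_pos hmem, hcardk k hk x]
        push_cast
        exact mul_le_mul (hle a k hk.le x) le_rfl (by positivity) (by positivity))
    have hEk : E a (k + 1) = ∑ y, (∑ x, walk S a k x *
        (if y ∈ S k x then ((S k x).card : ℝ)⁻¹ else 0)) * g y := by
      rw [hE]
      rfl
    have hR := hT k (by omega)
    have h1 : |E a k - E a (k + 1)| ^ q ≤ (4 * ρ * (1 / 2) ^ k * τ) ^ q := by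
      rw [hEk, hE]
      refine le_trans hcore ?_
      refine le_trans (mul_le_mul_of_nonneg_left hR
        (mul_nonneg hK0 (Real.rpow_nonneg (hδn k) q))) ?_
      rw [← hτq, hδdef]
      exact arith_step q hq L hL ρ τ hρ.le hτ0 k
    exact (Real.rpow_le_rpow_iff (abs_nonneg _) (by positivity) hq0).mp h1
  -- the meeting estimate
  have hmeet : |E i ks - E j ks| ≤ (2 * (L : ℝ)) ^ (1 / q) * ρ * τ := by
    have hK0 : 0 ≤ ((L : ℝ) ^ ks)⁻¹ * ((L : ℝ) ^ ks)⁻¹ := by positivity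
    have hD0 : 0 ≤ ρ * 5 ^ ks := by positivity
    have hcore := pair_core d hdn q hq g hg (walk S i ks) (fun _ y => walk S j ks y)
      (walk_nonneg S i ks) (hsum i ks le_rfl) (fun _ y => walk_nonneg S j ks y)
      (fun _ => hsum j ks le_rfl)
      (S ks) (((L : ℝ) ^ ks)⁻¹ * ((L : ℝ) ^ ks)⁻¹) (ρ * 5 ^ ks) hK0 hD0
      (by
        intro x y hxy
        have hw : walk S i ks x ≠ 0 := left_ne_zero_of_mul hxy
        have hv : walk S j ks y ≠ 0 := right_ne_zero_of_mul hxy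
        have hx := hsuppi ks le_rfl x hw
        have hy := hsuppj ks le_rfl y hv
        refine ⟨hks x y hx hy, ?_, mul_le_mul (hle i ks le_rfl x) (hle j ks le_rfl y)
          (walk_nonneg S j ks y) (by positivity)⟩
        have h1 := hdt x i y
        have h2 := hdt i j y
        rw [hds x i] at h1
        rw [← hρdef] at h2
        have h3 := h2σ ks
        linarith)
    have hEj : ∑ y, (∑ x, walk S i ks x * walk S j ks y) * g y = E j ks := by
      rw [hE]
      apply Finset.sum_congr rfl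
      intro y _
      rw [← Finset.sum_mul, hsum i ks le_rfl, one_mul]
    have hR := hT ks hksn
    have h1 : |E i ks - E j ks| ^ q ≤ ((2 * (L : ℝ)) ^ (1 / q) * ρ * τ) ^ q := by
      rw [← hEj, hE]
      refine le_trans hcore ?_
      refine le_trans (mul_le_mul_of_nonneg_left hR
        (mul_nonneg hK0 (Real.rpow_nonneg hD0 q))) ?_
      rw [← hτq]
      exact arith_meet q hq L hL ρ τ hρ.le hτ0 ks
    have hrhs : 0 ≤ (2 * (L : ℝ)) ^ (1 / q) * ρ * τ :=
      mul_nonneg (mul_nonneg (Real.rpow_nonneg (by linarith) _) hρ.le) hτ0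
    exact (Real.rpow_le_rpow_iff (abs_nonneg _) hrhs hq0).mp h1
  -- the telescoping induction
  have hind : ∀ k, k ≤ ks →
      |g i - g j| ≤ (∑ k' ∈ Finset.range k, 8 * ρ * τ * (1 / 2) ^ k') + |E i k - E j k| := by
    intro k
    induction k with
    | zero =>
      intro _
      have hEi : E i 0 = g i := by
        rw [hE]
        simp [walk]
      have hEj : E j 0 = g j := by
        rw [hE]
        simp [walk]
      rw [hEi, hEj]
      simp
    | succ k ih =>
      intro hk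
      have h0 := ih (by omega)
      have hi := hstep i hballi hsuppi k (by omega)
      have hj := hstep j hballj hsuppj k (by omega)
      rw [Finset.sum_range_succ]
      have htri : |E i k - E j k| ≤
          |E i k - E i (k + 1)| + |E i (k + 1) - E j (k + 1)| + |E j k - E j (k + 1)| := by
        have h3 : E i k - E j k =
            (E i k - E i (k + 1)) + (E i (k + 1) - E j (k + 1)) + (E j (k + 1) - E j k) := by
          ring
        rw [h3, abs_sub_comm (E j k) (E j (k + 1))]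
        exact abs_add_three _ _ _
      linarith
  have hfin := hind ks le_rfl
  have hgeo : ∑ k' ∈ Finset.range ks, 8 * ρ * τ * (1 / 2 : ℝ) ^ k' ≤ 16 * ρ * τ := by
    rw [← Finset.mul_sum]
    have h1 := sum_geometric_two_le ks
    have h2 : 0 ≤ 8 * ρ * τ := mul_nonneg (mul_nonneg (by norm_num) hρ.le) hτ0
    nlinarith
  have hle' : |g i - g j| ≤ (16 + (2 * (L : ℝ)) ^ (1 / q)) * (ρ * τ) := by
    have h1 : (16 + (2 * (L : ℝ)) ^ (1 / q)) * (ρ * τ) =
        16 * ρ * τ + (2 * (L : ℝ)) ^ (1 / q) * ρ * τ := by ring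
    rw [h1]
    linarith
  calc |g i - g j| ^ q ≤ ((16 + (2 * (L : ℝ)) ^ (1 / q)) * (ρ * τ)) ^ q :=
        Real.rpow_le_rpow (abs_nonneg _) hle' hq0.le
    _ = (16 + (2 * (L : ℝ)) ^ (1 / q)) ^ q * (ρ ^ q * T) := by
        rw [Real.mul_rpow hC0 (mul_nonneg hρ.le hτ0), Real.mul_rpow hρ.le hτ0, hτq]

end Vale.Agent.Lib.P249.H5
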