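import Vale.Agent.Lib.P249.helper62.GridDefs

/-!
# Discrete Prekopa-Leindler on the naturals (helper5; pool jobs 227/228 = P249-GRID-A/B, copies)

`pl_level` and `pl_sq` with the exact statements of helper62's skeleton (report 2004).
-/

open Finset
open scoped Pointwise
open Vale.Agent.Lib.P249.H62

namespace Vale.Agent.Lib.P249.H5n

/-- auxiliary: the level form with the induction made explicit -/
theorem pl_level_aux (A B : Finset ℕ) (F G H : ℕ → ℝ) (M : ℝ)
    (hF0 : ∀ x ∈ A, 0 ≤ F x) (hG0 : ∀ y ∈ B, 0 ≤ G y)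
    (hFM : ∀ x ∈ A, F x ≤ M) (hGM : ∀ y ∈ B, G y ≤ M)
    (hFa : ∃ x ∈ A, F x = M) (hGa : ∃ y ∈ B, G y = M)
    (hH : ∀ x ∈ A, ∀ y ∈ B, min (F x) (G y) ≤ H (x + y)) :
    ∑ x ∈ A, F x + ∑ y ∈ B, G y - M ≤ ∑ z ∈ A + B, H z := by
  induction' hn : A.card + B.card using Nat.strong_induction_on with n ih
    generalizing A B F G H M
  obtain ⟨xm, hxm, hxmM⟩ := hFa
  obtain ⟨ym, hym, hymM⟩ := hGa
  have hAne : A.Nonempty := ⟨xm, hxm⟩
  have hBne : B.Nonempty := ⟨ym, hym⟩
  -- the least value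
  set S : Finset ℝ := A.image F ∪ B.image G with hS
  have hSne : S.Nonempty := ⟨F xm, by simp [hS]; exact Or.inl ⟨xm, hxm, rfl⟩⟩
  set t : ℝ := S.min' hSne with ht
  have htF : ∀ x ∈ A, t ≤ F x := fun x hx =>
    Finset.min'_le S _ (by simp only [hS, mem_union, mem_image]; exact Or.inl ⟨x, hx, rfl⟩)
  have htG : ∀ y ∈ B, t ≤ G y := fun y hy =>
    Finset.min'_le S _ (by simp only [hS, mem_union, mem_image]; exact Or.inr ⟨y, hy, rfl⟩)
  have htmem : t ∈ S := Finset.min'_mem S hSne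
  have ht0 : 0 ≤ t := by
    simp only [hS, mem_union, mem_image] at htmem
    rcases htmem with ⟨x, hx, hxt⟩ | ⟨y, hy, hyt⟩
    · rw [← hxt]; exact hF0 x hx
    · rw [← hyt]; exact hG0 y hy
  have htM : t ≤ M := hxmM ▸ htF xm hxm
  have hHt : ∀ z ∈ A + B, t ≤ H z := by
    intro z hz
    obtain ⟨x, hx, y, hy, rfl⟩ := Finset.mem_add.mp hz
    exact le_trans (le_min (htF x hx) (htG y hy)) (hH x hx y hy)
  have hcard : (A.card : ℝ) + B.card - 1 ≤ ((A + B).card : ℝ) := by
    have h := cauchy_davenport_add_of_linearOrder_isCancelAdd hAne hBne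
    have h1 : 1 ≤ A.card + B.card := by
      have := hAne.card_pos; omega
    have h2 : ((A.card + B.card - 1 : ℕ) : ℝ) ≤ ((A + B).card : ℝ) := by exact_mod_cast h
    rw [Nat.cast_sub h1] at h2
    push_cast at h2
    linarith
  have hsumF : ∑ x ∈ A, (F x - t) = ∑ x ∈ A, F x - A.card * t := by
    rw [Finset.sum_sub_distrib]; simp
  have hsumG : ∑ y ∈ B, (G y - t) = ∑ y ∈ B, G y - B.card * t := by
    rw [Finset.sum_sub_distrib]; simp
  have hsumH : ∑ z ∈ A + B, (H z - t) = ∑ z ∈ A + B, H z - (A + B).card * t := by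
    rw [Finset.sum_sub_distrib]; simp
  by_cases htM' : t = M
  · -- all values equal `M`
    have hF' : ∑ x ∈ A, (F x - t) = 0 :=
      Finset.sum_eq_zero fun x hx => by
        have := htF x hx; have := hFM x hx; linarith
    have hG' : ∑ y ∈ B, (G y - t) = 0 :=
      Finset.sum_eq_zero fun y hy => by
        have := htG y hy; have := hGM y hy; linarith
    have hH' : 0 ≤ ∑ z ∈ A + B, (H z - t) :=
      Finset.sum_nonneg fun z hz => by have := hHt z hz; linarith
    have hM0 : 0 ≤ M := htM' ▸ ht0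
    rw [htM'] at hsumF hsumG hsumH hF' hG' hH'
    nlinarith [mul_nonneg (sub_nonneg.mpr hcard) hM0]
  · have htlt : t < M := lt_of_le_of_ne htM htM'
    set A' : Finset ℕ := A.filter (fun x => t < F x) with hA'
    set B' : Finset ℕ := B.filter (fun y => t < G y) with hB'
    have hxm' : xm ∈ A' := by simp only [hA', mem_filter]; exact ⟨hxm, by rw [hxmM]; exact htlt⟩
    have hym' : ym ∈ B' := by simp only [hB', mem_filter]; exact ⟨hym, by rw [hymM]; exact htlt⟩
    have hA'sub : A' ⊆ A := Finset.filter_subset _ _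
    have hB'sub : B' ⊆ B := Finset.filter_subset _ _
    have hcardlt : A'.card + B'.card < n := by
      have h1 : A'.card ≤ A.card := Finset.card_le_card hA'sub
      have h2 : B'.card ≤ B.card := Finset.card_le_card hB'sub
      simp only [hS, mem_union, mem_image] at htmem
      rcases htmem with ⟨x, hx, hxt⟩ | ⟨y, hy, hyt⟩
      · have : A'.card < A.card := by
          apply Finset.card_lt_card
          refine ⟨hA'sub, fun hsub => ?_⟩
          have := hsub hx
          simp only [hA', mem_filter] at this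
          linarith [this.2]
        omega
      · have : B'.card < B.card := by
          apply Finset.card_lt_card
          refine ⟨hB'sub, fun hsub => ?_⟩
          have := hsub hy
          simp only [hB', mem_filter] at this
          linarith [this.2]
        omega
    have key := ih (A'.card + B'.card) hcardlt A' B' (fun x => F x - t) (fun y => G y - t)
      (fun z => H z - t) (M - t)
      (fun x hx => by have := htF x (hA'sub hx); linarith)
      (fun y hy => by have := htG y (hB'sub hy); linarith)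
      (fun x hx => by have := hFM x (hA'sub hx); linarith)
      (fun y hy => by have := hGM y (hB'sub hy); linarith)
      ⟨xm, hxm', by rw [hxmM]⟩ ⟨ym, hym', by rw [hymM]⟩
      (fun x hx y hy => by
        have := hH x (hA'sub hx) y (hB'sub hy)
        rw [min_sub_sub_right]; linarith) rfl
    have hFf : ∑ x ∈ A', (F x - t) = ∑ x ∈ A, (F x - t) := by
      rw [hA']
      apply Finset.sum_filter_of_ne
      intro x hx hne
      exact lt_of_le_of_ne (htF x hx) (fun h => hne (by rw [h]; ring))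
    have hGf : ∑ y ∈ B', (G y - t) = ∑ y ∈ B, (G y - t) := by
      rw [hB']
      apply Finset.sum_filter_of_ne
      intro y hy hne
      exact lt_of_le_of_ne (htG y hy) (fun h => hne (by rw [h]; ring))
    have hHsub : ∑ z ∈ A' + B', (H z - t) ≤ ∑ z ∈ A + B, (H z - t) := by
      apply Finset.sum_le_sum_of_subset_of_nonneg (Finset.add_subset_add hA'sub hB'sub)
      intro z hz _
      have := hHt z hz; linarith
    rw [hFf, hGf] at key
    have h3 := mul_nonneg (sub_nonneg.mpr hcard) ht0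
    nlinarith [h3]

/-- J-A: discrete Prekopa-Leindler on the naturals, level form. -/
theorem pl_level (A B : Finset ℕ) (F G H : ℕ → ℝ) (m : ℝ)
    (hF0 : ∀ x ∈ A, 0 ≤ F x) (hG0 : ∀ y ∈ B, 0 ≤ G y)
    (hFm : ∀ x ∈ A, F x ≤ m) (hGm : ∀ y ∈ B, G y ≤ m)
    (hFa : ∃ x ∈ A, F x = m) (hGa : ∃ y ∈ B, G y = m)
    (hH : ∀ x ∈ A, ∀ y ∈ B, min (F x) (G y) ≤ H (x + y)) :
    ∑ x ∈ A, F x + ∑ y ∈ B, G y - m ≤ ∑ z ∈ A + B, H z :=
  pl_level_aux A B F G H m hF0 hG0 hFm hGm hFa hGa hH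

/-- J-B: discrete Prekopa-Leindler, multiplicative form with defect 1. -/
theorem pl_sq (A B : Finset ℕ) (F G H : ℕ → ℝ)
    (hF0 : ∀ x ∈ A, 0 ≤ F x) (hG0 : ∀ y ∈ B, 0 ≤ G y) (hH0 : ∀ z, 0 ≤ H z)
    (hH : ∀ x ∈ A, ∀ y ∈ B, F x * G y ≤ H (x + y) ^ 2)
    (h1 : ∀ x ∈ A, ∀ y ∈ B, F x * G y ≤ 1) :
    4 * ((∑ x ∈ A, F x) * (∑ y ∈ B, G y)) ≤ (∑ z ∈ A + B, H z + 1) ^ 2 := by
  have hSF0 : 0 ≤ ∑ x ∈ A, F x := Finset.sum_nonneg hF0
  have hSG0 : 0 ≤ ∑ y ∈ B, G y := Finset.sum_nonneg hG0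
  have hSH0 : 0 ≤ ∑ z ∈ A + B, H z := Finset.sum_nonneg fun z _ => hH0 z
  by_cases hA : A = ∅
  · subst hA; simp
  by_cases hB : B = ∅
  · subst hB; simp
  have hAne : A.Nonempty := Finset.nonempty_iff_ne_empty.mpr hA
  have hBne : B.Nonempty := Finset.nonempty_iff_ne_empty.mpr hB
  obtain ⟨xm, hxm, hxmax⟩ := Finset.exists_max_image A F hAne
  obtain ⟨ym, hym, hymax⟩ := Finset.exists_max_image B G hBne
  set MF : ℝ := F xm with hMF
  set MG : ℝ := G ym with hMG
  have hMF0 : 0 ≤ MF := hF0 xm hxm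
  have hMG0 : 0 ≤ MG := hG0 ym hym
  by_cases hMFz : MF = 0
  · have : ∑ x ∈ A, F x = 0 :=
      Finset.sum_eq_zero fun x hx => le_antisymm (hMFz ▸ hxmax x hx) (hF0 x hx)
    rw [this]; simp; positivity
  by_cases hMGz : MG = 0
  · have : ∑ y ∈ B, G y = 0 :=
      Finset.sum_eq_zero fun y hy => le_antisymm (hMGz ▸ hymax y hy) (hG0 y hy)
    rw [this]; simp; positivity
  have hMFpos : 0 < MF := lt_of_le_of_ne hMF0 (Ne.symm hMFz)
  have hMGpos : 0 < MG := lt_of_le_of_ne hMG0 (Ne.symm hMGz)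
  set c : ℝ := Real.sqrt (MF * MG) with hc
  have hcpos : 0 < c := Real.sqrt_pos.mpr (mul_pos hMFpos hMGpos)
  have hcsq : c ^ 2 = MF * MG := Real.sq_sqrt (mul_pos hMFpos hMGpos).le
  have hcle : c ≤ 1 := by
    have h2 : MF * MG ≤ 1 := h1 xm hxm ym hym
    have h4 : c ^ 2 ≤ 1 ^ 2 := by rw [hcsq]; linarith
    exact le_of_sq_le_sq h4 zero_le_one
  have key := pl_level_aux A B (fun x => F x / MF) (fun y => G y / MG) (fun z => H z / c) 1
    (fun x hx => div_nonneg (hF0 x hx) hMF0) (fun y hy => div_nonneg (hG0 y hy) hMG0)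
    (fun x hx => (div_le_one hMFpos).mpr (hxmax x hx))
    (fun y hy => (div_le_one hMGpos).mpr (hymax y hy))
    ⟨xm, hxm, div_self hMFz⟩ ⟨ym, hym, div_self hMGz⟩
    (fun x hx y hy => by
      have hp : 0 ≤ F x / MF := div_nonneg (hF0 x hx) hMF0
      have hq : 0 ≤ G y / MG := div_nonneg (hG0 y hy) hMG0
      have hm0 : 0 ≤ min (F x / MF) (G y / MG) := le_min hp hq
      have hHz : 0 ≤ H (x + y) / c := div_nonneg (hH0 _) hcpos.le
      have h1' : min (F x / MF) (G y / MG) ^ 2 ≤ (F x / MF) * (G y / MG) := by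
        rw [sq]
        exact mul_le_mul (min_le_left _ _) (min_le_right _ _) hm0 hp
      have h2 : (F x / MF) * (G y / MG) ≤ (H (x + y) / c) ^ 2 := by
        rw [div_mul_div_comm, div_pow, hcsq]
        exact div_le_div_of_nonneg_right (hH x hx y hy) (mul_pos hMFpos hMGpos).le
      exact abs_le_of_sq_le_sq' (le_trans h1' h2) hHz |>.2)
  simp only [← Finset.sum_div] at key
  set SF := ∑ x ∈ A, F x with hSF
  set SG := ∑ y ∈ B, G y with hSG
  set SH := ∑ z ∈ A + B, H z with hSH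
  have hu0 : 0 ≤ SF / MF := div_nonneg hSF0 hMF0
  have hv0 : 0 ≤ SG / MG := div_nonneg hSG0 hMG0
  have h5 : c * (SF / MF + SG / MG) ≤ SH + c := by
    have := mul_le_mul_of_nonneg_left key hcpos.le
    rw [mul_div_cancel₀ _ hcpos.ne'] at this
    linarith
  have h6 : (c * (SF / MF + SG / MG)) ^ 2 ≤ (SH + 1) ^ 2 := by
    apply pow_le_pow_left₀ (mul_nonneg hcpos.le (add_nonneg hu0 hv0))
    linarith
  have h7 : 4 * (SF * SG) = 4 * c ^ 2 * ((SF / MF) * (SG / MG)) := by
    rw [hcsq]; field_simp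
  have h8 : 4 * ((SF / MF) * (SG / MG)) ≤ (SF / MF + SG / MG) ^ 2 := by
    nlinarith [sq_nonneg (SF / MF - SG / MG)]
  calc 4 * (SF * SG) = 4 * c ^ 2 * ((SF / MF) * (SG / MG)) := h7
    _ = c ^ 2 * (4 * ((SF / MF) * (SG / MG))) := by ring
    _ ≤ c ^ 2 * (SF / MF + SG / MG) ^ 2 := mul_le_mul_of_nonneg_left h8 (sq_nonneg c)
    _ = (c * (SF / MF + SG / MG)) ^ 2 := by ring
    _ ≤ (SH + 1) ^ 2 := h6

end Vale.Agent.Lib.P249.H5n
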