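import Vale.Agent.Lib.P249.helper5.NNWalk

/-!
# P249: total pair sensitivity of `n` points of `ℓ_p^m` is at most `76 ^ p * n`

For `n` points of `ℓ_p^m` there are coordinate weights `s k ≥ 0` with
`|x i k - x j k| ^ p ≤ s k * ∑ k', |x i k' - x j k'| ^ p` for all pairs and all coordinates and
`∑ k, s k ≤ 76 ^ p * n`: no logarithm.
-/

namespace Vale.Agent.Lib.P249.H5

open Finset
open scoped ENNReal

/-- The total pair sensitivity is at most `(16 + (2 ⌈2 · 10 ^ q⌉) ^ (1 / q)) ^ q * n`. -/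
theorem sens_nn_raw (p : ℝ≥0∞) [Fact (1 ≤ p)] (hp : p ≠ ⊤) (n m : ℕ)
    (x : Fin n → PiLp p (fun _ : Fin m => ℝ)) :
    ∃ s : Fin m → ℝ, (∀ k, 0 ≤ s k) ∧
      (∀ k i j, |x i k - x j k| ^ p.toReal ≤ s k * ∑ k', |x i k' - x j k'| ^ p.toReal) ∧
      ∑ k, s k ≤ (16 + (2 * (⌈2 * (10 : ℝ) ^ p.toReal⌉₊ : ℝ)) ^ (1 / p.toReal)) ^ p.toReal * n := by
  have hp1 : (1 : ℝ≥0∞) ≤ p := Fact.out
  have hq : 1 ≤ p.toReal := by
    have h := ENNReal.toReal_mono hp hp1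
    simpa using h
  have hq0 : 0 < p.toReal := by linarith
  -- the distance
  have hV0 : ∀ a b : Fin n, 0 ≤ ∑ k, |x a k - x b k| ^ p.toReal := fun a b =>
    Finset.sum_nonneg fun k _ => Real.rpow_nonneg (abs_nonneg _) _
  have hdist : ∀ a b : Fin n, dist (x a) (x b) ^ p.toReal = ∑ k, |x a k - x b k| ^ p.toReal := by
    intro a b
    rw [PiLp.dist_eq_sum hq0]
    simp only [Real.dist_eq]
    rw [one_div, Real.rpow_inv_rpow (hV0 a b) hq0.ne']
  obtain ⟨L, hLdef⟩ : ∃ L : ℕ, L = ⌈2 * (10 : ℝ) ^ p.toReal⌉₊ := ⟨_, rfl⟩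
  have hL : 2 * (10 : ℝ) ^ p.toReal ≤ L := by
    rw [hLdef]
    exact Nat.le_ceil _
  have h10 : (1 : ℝ) ≤ (10 : ℝ) ^ p.toReal := Real.one_le_rpow (by norm_num) hq0.le
  have hLpos : (0 : ℝ) < L := by linarith
  rw [← hLdef]
  obtain ⟨C, hCdef⟩ : ∃ C : ℝ, C = (16 + (2 * (L : ℝ)) ^ (1 / p.toReal)) ^ p.toReal := ⟨_, rfl⟩
  have hC0 : 0 ≤ C := by
    rw [hCdef]
    exact Real.rpow_nonneg (add_nonneg (by norm_num) (Real.rpow_nonneg (by linarith) _)) _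
  rw [← hCdef]
  -- nearest-neighbour sets
  choose S hS1 hS2 using fun (k : ℕ) (a : Fin n) =>
    exists_nn (fun a b : Fin n => dist (x a) (x b)) (L ^ (k + 1)) a
  -- level energies
  obtain ⟨R, hR⟩ : ∃ R : Fin m → ℕ → ℝ, ∀ c k, R c k =
      ∑ a, ∑ b ∈ S k a, |x a c - x b c| ^ p.toReal / dist (x a) (x b) ^ p.toReal :=
    ⟨_, fun _ _ => rfl⟩
  have hR0 : ∀ c k, 0 ≤ R c k := by
    intro c k
    rw [hR]
    exact Finset.sum_nonneg fun a _ => Finset.sum_nonneg fun b _ =>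
      div_nonneg (Real.rpow_nonneg (abs_nonneg _) _) (Real.rpow_nonneg dist_nonneg _)
  obtain ⟨T, hT⟩ : ∃ T : Fin m → ℝ, ∀ c, T c =
      ∑ k ∈ Finset.range n, ((2 * (L : ℝ)) ^ (k + 1))⁻¹ * R c k := ⟨_, fun _ => rfl⟩
  have hw0 : ∀ k : ℕ, 0 < (2 * (L : ℝ)) ^ (k + 1) := fun k => pow_pos (by linarith) _
  have hT0 : ∀ c, 0 ≤ T c := by
    intro c
    rw [hT]
    exact Finset.sum_nonneg fun k _ => mul_nonneg (inv_nonneg.mpr (hw0 k).le) (hR0 c k)
  refine ⟨fun c => C * T c, fun c => mul_nonneg hC0 (hT0 c), ?_, ?_⟩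
  · -- the sensitivity inequality
    intro c i j
    have hTk : ∀ k, k < Fintype.card (Fin n) →
        ∑ a, ∑ b ∈ S k a, |x a c - x b c| ^ p.toReal / dist (x a) (x b) ^ p.toReal ≤
          (2 * (L : ℝ)) ^ (k + 1) * T c := by
      intro k hk
      rw [Fintype.card_fin] at hk
      rw [← hR, hT]
      have h1 : ((2 * (L : ℝ)) ^ (k + 1))⁻¹ * R c k ≤
          ∑ k' ∈ Finset.range n, ((2 * (L : ℝ)) ^ (k' + 1))⁻¹ * R c k' :=
        Finset.single_le_sum (f := fun k' => ((2 * (L : ℝ)) ^ (k' + 1))⁻¹ * R c k')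
          (fun k' _ => mul_nonneg (inv_nonneg.mpr (hw0 k').le) (hR0 c k'))
          (Finset.mem_range.mpr hk)
      calc R c k = (2 * (L : ℝ)) ^ (k + 1) * (((2 * (L : ℝ)) ^ (k + 1))⁻¹ * R c k) := by
            rw [← mul_assoc, mul_inv_cancel₀ (hw0 k).ne', one_mul]
        _ ≤ _ := mul_le_mul_of_nonneg_left h1 (hw0 k).le
    have hmain := nn_walk_bound (fun a b : Fin n => dist (x a) (x b))
      (fun a => dist_self _) (fun a b => dist_nonneg) (fun a b => dist_comm _ _)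
      (fun a b c => dist_triangle _ _ _) p.toReal hq L hL S hS1 hS2 (fun a => x a c)
      (fun a b hab => by
        have h1 : x a = x b := dist_eq_zero.mp hab
        simp only [h1])
      (T c) (hT0 c) hTk i j
    rw [hdist i j, ← hCdef] at hmain
    calc |x i c - x j c| ^ p.toReal ≤ C * ((∑ k', |x i k' - x j k'| ^ p.toReal) * T c) := hmain
      _ = C * T c * ∑ k', |x i k' - x j k'| ^ p.toReal := by ring
  · -- the total
    have hRsum : ∀ k, ∑ c, R c k ≤ (n : ℝ) * (L : ℝ) ^ (k + 1) := by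
      intro k
      simp_rw [hR]
      rw [Finset.sum_comm]
      have h1 : ∀ a : Fin n, ∑ c, ∑ b ∈ S k a,
          |x a c - x b c| ^ p.toReal / dist (x a) (x b) ^ p.toReal ≤ (L : ℝ) ^ (k + 1) := by
        intro a
        rw [Finset.sum_comm]
        have h2 : ∀ b ∈ S k a, ∑ c, |x a c - x b c| ^ p.toReal / dist (x a) (x b) ^ p.toReal
            ≤ 1 := by
          intro b _
          rw [← Finset.sum_div, hdist a b]
          exact div_self_le_one _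
        have h3 : ((S k a).card : ℝ) ≤ (L : ℝ) ^ (k + 1) := by
          have h4 : (S k a).card ≤ L ^ (k + 1) := by
            rw [hS1]
            exact min_le_left _ _
          exact_mod_cast h4
        calc ∑ b ∈ S k a, ∑ c, |x a c - x b c| ^ p.toReal / dist (x a) (x b) ^ p.toReal
            ≤ ∑ b ∈ S k a, (1 : ℝ) := Finset.sum_le_sum h2
          _ = ((S k a).card : ℝ) := by simp
          _ ≤ _ := h3
      calc ∑ a, ∑ c, ∑ b ∈ S k a, |x a c - x b c| ^ p.toReal / dist (x a) (x b) ^ p.toReal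
          ≤ ∑ _a : Fin n, (L : ℝ) ^ (k + 1) := Finset.sum_le_sum fun a _ => h1 a
        _ = (n : ℝ) * (L : ℝ) ^ (k + 1) := by simp
    have hsumT : ∑ c, T c ≤ (n : ℝ) := by
      simp_rw [hT]
      rw [Finset.sum_comm]
      simp_rw [← Finset.mul_sum]
      have h1 : ∀ k ∈ Finset.range n, ((2 * (L : ℝ)) ^ (k + 1))⁻¹ * ∑ c, R c k ≤
          (n : ℝ) / 2 * (1 / 2 : ℝ) ^ k := by
        intro k _
        have h2 := mul_le_mul_of_nonneg_left (hRsum k) (inv_nonneg.mpr (hw0 k).le)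
        refine le_trans h2 (le_of_eq ?_)
        have hLk : (L : ℝ) ^ (k + 1) ≠ 0 := (pow_pos hLpos _).ne'
        rw [mul_pow, one_div, inv_pow, pow_succ (2 : ℝ) k]
        field_simp
      have h3 := sum_geometric_two_le n
      have hn0 : (0 : ℝ) ≤ (n : ℝ) / 2 := by positivity
      calc ∑ k ∈ Finset.range n, ((2 * (L : ℝ)) ^ (k + 1))⁻¹ * ∑ c, R c k
          ≤ ∑ k ∈ Finset.range n, (n : ℝ) / 2 * (1 / 2 : ℝ) ^ k := Finset.sum_le_sum h1
        _ = (n : ℝ) / 2 * ∑ k ∈ Finset.range n, (1 / 2 : ℝ) ^ k := by rw [Finset.mul_sum]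
        _ ≤ (n : ℝ) / 2 * 2 := mul_le_mul_of_nonneg_left h3 hn0
        _ = n := by ring
    calc ∑ c, C * T c = C * ∑ c, T c := by rw [Finset.mul_sum]
      _ ≤ C * n := mul_le_mul_of_nonneg_left hsumT hC0

/-- The constant of `sens_nn_raw` is at most `76 ^ q`. -/
theorem const_le (q : ℝ) (hq : 1 ≤ q) :
    (16 + (2 * (⌈2 * (10 : ℝ) ^ q⌉₊ : ℝ)) ^ (1 / q)) ^ q ≤ (76 : ℝ) ^ q := by
  have hq0 : 0 < q := by linarith
  have h10 : (1 : ℝ) ≤ (10 : ℝ) ^ q := Real.one_le_rpow (by norm_num) hq0.le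
  have h1 : ((⌈2 * (10 : ℝ) ^ q⌉₊ : ℕ) : ℝ) < 2 * (10 : ℝ) ^ q + 1 :=
    Nat.ceil_lt_add_one (by positivity)
  have h6 : (6 : ℝ) ≤ (6 : ℝ) ^ q := by
    have h := Real.rpow_le_rpow_of_exponent_le (x := 6) (by norm_num) hq
    rw [Real.rpow_one] at h
    exact h
  have h60 : (60 : ℝ) ^ q = (6 : ℝ) ^ q * (10 : ℝ) ^ q := by
    rw [← Real.mul_rpow (by norm_num) (by norm_num)]
    norm_num
  have h2 : 2 * ((⌈2 * (10 : ℝ) ^ q⌉₊ : ℕ) : ℝ) ≤ (60 : ℝ) ^ q := by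
    rw [h60]
    nlinarith
  have h0 : (0 : ℝ) ≤ 2 * ((⌈2 * (10 : ℝ) ^ q⌉₊ : ℕ) : ℝ) := by positivity
  have h3 : (2 * ((⌈2 * (10 : ℝ) ^ q⌉₊ : ℕ) : ℝ)) ^ (1 / q) ≤ 60 := by
    have h4 := Real.rpow_le_rpow h0 h2 (by positivity : (0 : ℝ) ≤ 1 / q)
    rw [one_div, Real.rpow_rpow_inv (by norm_num) hq0.ne'] at h4
    rw [one_div]
    exact h4
  have h5 : (0 : ℝ) ≤ (2 * ((⌈2 * (10 : ℝ) ^ q⌉₊ : ℕ) : ℝ)) ^ (1 / q) := Real.rpow_nonneg h0 _
  exact Real.rpow_le_rpow (by linarith) (by linarith) hq0.le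

/-- **Total pair sensitivity without a logarithm.**  For `n` points of `ℓ_p^m` there are
coordinate weights `s k ≥ 0` such that every coordinate `k` of every difference satisfies
`|x i k - x j k| ^ p ≤ s k * ‖x i - x j‖_p ^ p`, and `∑ k, s k ≤ 76 ^ p * n`. -/
theorem sens_nn (p : ℝ≥0∞) [Fact (1 ≤ p)] (hp : p ≠ ⊤) (n m : ℕ)
    (x : Fin n → PiLp p (fun _ : Fin m => ℝ)) :
    ∃ s : Fin m → ℝ, (∀ k, 0 ≤ s k) ∧
      (∀ k i j, |x i k - x j k| ^ p.toReal ≤ s k * ∑ k', |x i k' - x j k'| ^ p.toReal) ∧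
      ∑ k, s k ≤ (76 : ℝ) ^ p.toReal * n := by
  have hp1 : (1 : ℝ≥0∞) ≤ p := Fact.out
  have hq : 1 ≤ p.toReal := by
    have h := ENNReal.toReal_mono hp hp1
    simpa using h
  obtain ⟨s, hs0, hs, hS⟩ := sens_nn_raw p hp n m x
  exact ⟨s, hs0, hs, le_trans hS
    (mul_le_mul_of_nonneg_right (const_le p.toReal hq) (Nat.cast_nonneg n))⟩

end Vale.Agent.Lib.P249.H5
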